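import Mathlib

set_option autoImplicit false

open Finset

namespace Crest.Agent.MarkovCotype

variable {V : Type*} [Fintype V] [DecidableEq V]

/-- The standing hypotheses: a reversible stochastic matrix with a probability vector. -/
structure Chain (w : V → ℝ) (A : Matrix V V ℝ) : Prop where
  w_nonneg : ∀ i, 0 ≤ w i
  w_sum : ∑ i, w i = 1
  A_nonneg : ∀ i j, 0 ≤ A i j
  A_sum : ∀ i, ∑ j, A i j = 1
  rev : ∀ i j, w i * A i j = w j * A j i

variable {w : V → ℝ} {A : Matrix V V ℝ}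

theorem Chain.pow_nonneg (h : Chain w A) (s : ℕ) (i j : V) : 0 ≤ (A ^ s) i j := by
  induction s generalizing i j with
  | zero =>
    simp only [pow_zero, Matrix.one_apply]
    split_ifs <;> norm_num
  | succ s ih =>
    rw [pow_succ, Matrix.mul_apply]
    exact Finset.sum_nonneg fun k _ => mul_nonneg (ih i k) (h.A_nonneg k j)

theorem Chain.pow_sum (h : Chain w A) (s : ℕ) (i : V) : ∑ j, (A ^ s) i j = 1 := by
  induction s generalizing i with
  | zero => simp [Matrix.one_apply]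
  | succ s ih =>
    simp only [pow_succ, Matrix.mul_apply]
    rw [Finset.sum_comm]
    simp only [← Finset.mul_sum, h.A_sum, mul_one, ih]

theorem Chain.pow_rev (h : Chain w A) (s : ℕ) (i j : V) :
    w i * (A ^ s) i j = w j * (A ^ s) j i := by
  induction s generalizing i j with
  | zero =>
    simp only [pow_zero, Matrix.one_apply]
    by_cases hij : i = j
    · subst hij; simp
    · have : ¬ j = i := fun e => hij e.symm
      simp [hij, this]
  | succ s ih =>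
    have e1 : A ^ (s + 1) = A ^ s * A := pow_succ A s
    have e2 : A ^ (s + 1) = A * A ^ s := pow_succ' A s
    have e3 : (A ^ (s + 1)) i j = ((A ^ s) * A) i j := by rw [e1]
    have e4 : (A ^ (s + 1)) j i = (A * (A ^ s)) j i := by rw [e2]
    rw [e3, e4, Matrix.mul_apply, Matrix.mul_apply, Finset.mul_sum, Finset.mul_sum]
    refine Finset.sum_congr rfl fun k _ => ?_
    have h1 := ih i k
    have h2 := h.rev k j
    calc w i * ((A ^ s) i k * A k j) = (w i * (A ^ s) i k) * A k j := by ring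
      _ = (w k * (A ^ s) k i) * A k j := by rw [h1]
      _ = (w k * A k j) * (A ^ s) k i := by ring
      _ = (w j * A j k) * (A ^ s) k i := by rw [h2]
      _ = w j * (A j k * (A ^ s) k i) := by ring

theorem Chain.stationary (h : Chain w A) (s : ℕ) (j : V) : ∑ i, w i * (A ^ s) i j = w j := by
  calc ∑ i, w i * (A ^ s) i j = ∑ i, w j * (A ^ s) j i :=
        Finset.sum_congr rfl fun i _ => h.pow_rev s i j
    _ = w j := by rw [← Finset.mul_sum, h.pow_sum, mul_one]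

/-- `s` steps of the Markov operator applied to a function. -/
noncomputable def Pf (A : Matrix V V ℝ) (s : ℕ) (f : V → ℝ) (i : V) : ℝ := ∑ j, (A ^ s) i j * f j

theorem Pf_zero (f : V → ℝ) (i : V) : Pf A 0 f i = f i := by
  simp [Pf, Matrix.one_apply]

/-- `A^(s+1) f = A^s (A f)`. -/
theorem Pf_succ (s : ℕ) (f : V → ℝ) (i : V) :
    Pf A (s + 1) f i = Pf A s (fun k => ∑ j, A k j * f j) i := by
  simp only [Pf, pow_succ, Matrix.mul_apply, Finset.sum_mul, Finset.mul_sum]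
  rw [Finset.sum_comm]
  refine Finset.sum_congr rfl fun k _ => Finset.sum_congr rfl fun j _ => ?_
  ring

/-- `A^(s+1) f = A (A^s f)`. -/
theorem Pf_succ' (s : ℕ) (f : V → ℝ) (i : V) :
    Pf A (s + 1) f i = ∑ k, A i k * Pf A s f k := by
  simp only [Pf, pow_succ', Matrix.mul_apply, Finset.sum_mul, Finset.mul_sum]
  rw [Finset.sum_comm]
  refine Finset.sum_congr rfl fun k _ => Finset.sum_congr rfl fun j _ => ?_
  ring

theorem Pf_mono (h : Chain w A) (s : ℕ) {f g : V → ℝ} (hfg : ∀ k, f k ≤ g k) (i : V) :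
    Pf A s f i ≤ Pf A s g i :=
  Finset.sum_le_sum fun j _ => mul_le_mul_of_nonneg_left (hfg j) (h.pow_nonneg s i j)

theorem Pf_const (h : Chain w A) (s : ℕ) (c : ℝ) (i : V) : Pf A s (fun _ => c) i = c := by
  simp only [Pf, ← Finset.sum_mul, h.pow_sum, one_mul]

theorem Pf_add (s : ℕ) (f g : V → ℝ) (i : V) :
    Pf A s (fun k => f k + g k) i = Pf A s f i + Pf A s g i := by
  simp only [Pf, mul_add, Finset.sum_add_distrib]

theorem Pf_sub (s : ℕ) (f g : V → ℝ) (i : V) :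
    Pf A s (fun k => f k - g k) i = Pf A s f i - Pf A s g i := by
  simp only [Pf, mul_sub, Finset.sum_sub_distrib]

theorem Pf_nonneg (h : Chain w A) (s : ℕ) {f : V → ℝ} (hf : ∀ k, 0 ≤ f k) (i : V) :
    0 ≤ Pf A s f i :=
  Finset.sum_nonneg fun j _ => mul_nonneg (h.pow_nonneg s i j) (hf j)

theorem Pf_le_of_le (h : Chain w A) (s : ℕ) {f : V → ℝ} {c : ℝ} (hf : ∀ k, f k ≤ c) (i : V) :
    Pf A s f i ≤ c := by
  have := Pf_mono h s (f := f) (g := fun _ => c) hf i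
  rwa [Pf_const h] at this

/-- One-step conditional variance. -/
noncomputable def Var1 (A : Matrix V V ℝ) (v : V → ℝ) (k : V) : ℝ :=
  ∑ q, A k q * (v q) ^ 2 - (∑ q, A k q * v q) ^ 2

omit [DecidableEq V] in
theorem Var1_eq (h : Chain w A) (v : V → ℝ) (k : V) :
    Var1 A v k = ∑ q, A k q * (v q - ∑ p, A k p * v p) ^ 2 := by
  set m := ∑ p, A k p * v p with hm
  have e : ∀ q, A k q * (v q - m) ^ 2 = A k q * (v q) ^ 2 - 2 * m * (A k q * v q) + m ^ 2 * A k q := by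
    intro q; ring
  simp only [e, Finset.sum_add_distrib, Finset.sum_sub_distrib, ← Finset.mul_sum, h.A_sum, Var1]
  rw [← hm]; ring

theorem Var1_nonneg (h : Chain w A) (v : V → ℝ) (k : V) : 0 ≤ Var1 A v k := by
  rw [Var1_eq h]
  exact Finset.sum_nonneg fun q _ => mul_nonneg (h.A_nonneg k q) (sq_nonneg _)

/-- Telescoping identity for the variance along the semigroup. -/
theorem var_telescope (h : Chain w A) (f : V → ℝ) (n N : ℕ) (hN : N ≤ n) (i : V) :
    ∑ l ∈ range N, Pf A l (Var1 A (Pf A (n - 1 - l) f)) i =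
      Pf A N (fun k => (Pf A (n - N) f k) ^ 2) i - (Pf A n f i) ^ 2 := by
  induction N with
  | zero =>
    simp [Pf_zero]
  | succ N ih =>
    rw [Finset.sum_range_succ, ih (by omega)]
    have hn : n - N = (n - 1 - N) + 1 := by omega
    have hn' : n - (N + 1) = n - 1 - N := by omega
    set v := Pf A (n - 1 - N) f with hv
    have e1 : ∀ k, Var1 A v k = (∑ q, A k q * (v q) ^ 2) - (Pf A (n - N) f k) ^ 2 := by
      intro k
      simp only [Var1]
      rw [hn, Pf_succ']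
    have e2 : Pf A N (Var1 A v) i =
        Pf A N (fun k => ∑ q, A k q * (v q) ^ 2) i - Pf A N (fun k => (Pf A (n - N) f k) ^ 2) i := by
      rw [← Pf_sub]
      congr 1
      funext k
      exact e1 k
    rw [e2, hn', Pf_succ N (fun k => (v k) ^ 2) i]
    ring

/-- The variance at time `m + 1` of a `[0,1]`-valued function is at most `1/4`. -/
theorem var_sum_le (h : Chain w A) {f : V → ℝ} (hf0 : ∀ k, 0 ≤ f k) (hf1 : ∀ k, f k ≤ 1)
    (m : ℕ) (i : V) :
    ∑ l ∈ range (m + 1), Pf A l (Var1 A (Pf A (m - l) f)) i ≤ 1 / 4 := by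
  have key := var_telescope h f (m + 1) (m + 1) le_rfl i
  have e : ∀ l, m + 1 - 1 - l = m - l := by intro l; omega
  simp only [e] at key
  rw [key]
  have e0 : (fun k => (Pf A (m + 1 - (m + 1)) f k) ^ 2) = fun k => (f k) ^ 2 := by
    funext k
    simp [Pf_zero]
  rw [e0]
  have h1 : Pf A (m + 1) (fun k => (f k) ^ 2) i ≤ Pf A (m + 1) f i := by
    apply Pf_mono h
    intro k
    nlinarith [hf0 k, hf1 k]
  nlinarith [sq_nonneg (Pf A (m + 1) f i - 1 / 2)]

/-- Summing the previous bound along anti-diagonals. -/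
theorem double_var_le (h : Chain w A) {f : V → ℝ} (hf0 : ∀ k, 0 ≤ f k) (hf1 : ∀ k, f k ≤ 1)
    (τ : ℕ) (i : V) :
    ∑ l ∈ range τ, ∑ a ∈ range τ, Pf A l (Var1 A (Pf A a f)) i ≤ (τ : ℝ) / 2 := by
  set G : ℕ × ℕ → ℝ := fun p => Pf A p.1 (Var1 A (Pf A p.2 f)) i with hG
  have hG0 : ∀ p, 0 ≤ G p := fun p => Pf_nonneg h _ (Var1_nonneg h _) _
  rw [← Finset.sum_product' (range τ) (range τ) (fun l a => Pf A l (Var1 A (Pf A a f)) i)]
  have hmaps : ∀ p ∈ range τ ×ˢ range τ, p.1 + p.2 ∈ range (2 * τ) := by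
    intro p hp
    simp only [mem_product, mem_range] at hp ⊢
    omega
  rw [← Finset.sum_fiberwise_of_maps_to hmaps]
  have hfib : ∀ m ∈ range (2 * τ),
      ∑ p ∈ (range τ ×ˢ range τ).filter (fun p => p.1 + p.2 = m), Pf A p.1 (Var1 A (Pf A p.2 f)) i
        ≤ 1 / 4 := by
    intro m _
    calc ∑ p ∈ (range τ ×ˢ range τ).filter (fun p => p.1 + p.2 = m), Pf A p.1 (Var1 A (Pf A p.2 f)) i
        ≤ ∑ p ∈ Finset.HasAntidiagonal.antidiagonal m, Pf A p.1 (Var1 A (Pf A p.2 f)) i := by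
          apply Finset.sum_le_sum_of_subset_of_nonneg
          · intro p hp
            simp only [mem_filter] at hp
            simpa using hp.2
          · intro p _ _
            exact hG0 p
      _ = ∑ l ∈ range (m + 1), Pf A l (Var1 A (Pf A (m - l) f)) i := by
          rw [Finset.Nat.sum_antidiagonal_eq_sum_range_succ_mk]
      _ ≤ 1 / 4 := var_sum_le h hf0 hf1 m i
  calc _ ≤ ∑ _m ∈ range (2 * τ), (1 / 4 : ℝ) := Finset.sum_le_sum hfib
    _ = (τ : ℝ) / 2 := by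
      simp only [Finset.sum_const, card_range, nsmul_eq_mul]
      push_cast
      ring

theorem sum_mul_avg {ι κ : Type*} (s : Finset ι) (t : Finset κ) (c : κ → ℝ) (r : ℝ) (F : ι → κ → ℝ) :
    ∑ q ∈ t, c q * (r * ∑ a ∈ s, F a q) = r * ∑ a ∈ s, ∑ q ∈ t, c q * F a q := by
  simp only [Finset.mul_sum]
  rw [Finset.sum_comm]
  refine Finset.sum_congr rfl fun a _ => Finset.sum_congr rfl fun q _ => ?_
  ring

/-- The time average. -/
noncomputable def uAvg (A : Matrix V V ℝ) (τ : ℕ) (f : V → ℝ) (i : V) : ℝ :=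
  (1 / (τ : ℝ)) * ∑ a ∈ range τ, Pf A a f i

theorem uAvg_nonneg (h : Chain w A) (τ : ℕ) {f : V → ℝ} (hf0 : ∀ k, 0 ≤ f k) (i : V) :
    0 ≤ uAvg A τ f i := by
  unfold uAvg
  exact mul_nonneg (by positivity) (Finset.sum_nonneg fun a _ => Pf_nonneg h a hf0 i)

theorem uAvg_le_one (h : Chain w A) {τ : ℕ} (hτ : 0 < τ) {f : V → ℝ} (hf1 : ∀ k, f k ≤ 1) (i : V) :
    uAvg A τ f i ≤ 1 := by
  unfold uAvg
  have hτ' : (0 : ℝ) < τ := by exact_mod_cast hτ
  have : ∑ a ∈ range τ, Pf A a f i ≤ τ := by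
    calc ∑ a ∈ range τ, Pf A a f i ≤ ∑ _a ∈ range τ, (1 : ℝ) :=
          Finset.sum_le_sum fun a _ => Pf_le_of_le h a hf1 i
      _ = τ := by simp
  rw [one_div, inv_mul_le_iff₀ hτ']
  linarith

/-- `A u = (1/τ) ∑ A^(a+1) f`. -/
theorem A_uAvg (τ : ℕ) (f : V → ℝ) (k : V) :
    ∑ q, A k q * uAvg A τ f q = (1 / (τ : ℝ)) * ∑ a ∈ range τ, Pf A (a + 1) f k := by
  simp only [uAvg, Pf_succ']
  exact sum_mul_avg _ _ _ _ _

/-- Convexity of the one-step variance along the time average. -/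
theorem Var1_uAvg_le (h : Chain w A) {τ : ℕ} (hτ : 0 < τ) (f : V → ℝ) (k : V) :
    Var1 A (uAvg A τ f) k ≤ (1 / (τ : ℝ)) * ∑ a ∈ range τ, Var1 A (Pf A a f) k := by
  have hτ' : (0 : ℝ) < τ := by exact_mod_cast hτ
  rw [Var1_eq h]
  simp only [Var1_eq h]
  -- the mean of `u` is the average of the means
  have hm : ∑ p, A k p * uAvg A τ f p =
      (1 / (τ : ℝ)) * ∑ a ∈ range τ, ∑ p, A k p * Pf A a f p := by
    simp only [uAvg]
    exact sum_mul_avg _ _ _ _ _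
  rw [hm]
  have hpt : ∀ q, (uAvg A τ f q - (1 / (τ : ℝ)) * ∑ a ∈ range τ, ∑ p, A k p * Pf A a f p) ^ 2 ≤
      (1 / (τ : ℝ)) * ∑ a ∈ range τ, (Pf A a f q - ∑ p, A k p * Pf A a f p) ^ 2 := by
    intro q
    have e : uAvg A τ f q - (1 / (τ : ℝ)) * ∑ a ∈ range τ, ∑ p, A k p * Pf A a f p =
        (1 / (τ : ℝ)) * ∑ a ∈ range τ, (Pf A a f q - ∑ p, A k p * Pf A a f p) := by
      simp only [uAvg, Finset.sum_sub_distrib, mul_sub]
    rw [e, mul_pow]
    have hcs := sq_sum_le_card_mul_sum_sq (s := range τ)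
      (f := fun a => Pf A a f q - ∑ p, A k p * Pf A a f p)
    simp only [card_range] at hcs
    have hne : (τ : ℝ) ≠ 0 := hτ'.ne'
    calc (1 / (τ : ℝ)) ^ 2 * (∑ a ∈ range τ, (Pf A a f q - ∑ p, A k p * Pf A a f p)) ^ 2
        ≤ (1 / (τ : ℝ)) ^ 2 * ((τ : ℝ) * ∑ a ∈ range τ, (Pf A a f q - ∑ p, A k p * Pf A a f p) ^ 2) :=
          mul_le_mul_of_nonneg_left hcs (by positivity)
      _ = (1 / (τ : ℝ)) * ∑ a ∈ range τ, (Pf A a f q - ∑ p, A k p * Pf A a f p) ^ 2 := by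
          field_simp
  calc ∑ q, A k q * (uAvg A τ f q - (1 / (τ : ℝ)) * ∑ a ∈ range τ, ∑ p, A k p * Pf A a f p) ^ 2
      ≤ ∑ q, A k q * ((1 / (τ : ℝ)) * ∑ a ∈ range τ, (Pf A a f q - ∑ p, A k p * Pf A a f p) ^ 2) :=
        Finset.sum_le_sum fun q _ => mul_le_mul_of_nonneg_left (hpt q) (h.A_nonneg k q)
    _ = (1 / (τ : ℝ)) * ∑ a ∈ range τ, ∑ q, A k q * (Pf A a f q - ∑ p, A k p * Pf A a f p) ^ 2 :=
        sum_mul_avg _ _ _ _ _

/-- Decomposition of the local energy. -/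
theorem Gamma_eq (h : Chain w A) (v : V → ℝ) (k : V) :
    ∑ q, A k q * (v q - v k) ^ 2 = Var1 A v k + (∑ q, A k q * v q - v k) ^ 2 := by
  set m := ∑ p, A k p * v p with hm
  have e : ∀ q, A k q * (v q - v k) ^ 2 =
      A k q * (v q) ^ 2 - 2 * v k * (A k q * v q) + (v k) ^ 2 * A k q := by
    intro q; ring
  simp only [e, Finset.sum_add_distrib, Finset.sum_sub_distrib, ← Finset.mul_sum, h.A_sum, Var1]
  rw [← hm]; ring

/-- The drift of the time average is at most `1/τ`. -/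
theorem drift_sq_le (h : Chain w A) {τ : ℕ} (hτ : 0 < τ) {f : V → ℝ}
    (hf0 : ∀ k, 0 ≤ f k) (hf1 : ∀ k, f k ≤ 1) (k : V) :
    (∑ q, A k q * uAvg A τ f q - uAvg A τ f k) ^ 2 ≤ 1 / (τ : ℝ) ^ 2 := by
  have hτ' : (0 : ℝ) < τ := by exact_mod_cast hτ
  have e : ∑ q, A k q * uAvg A τ f q - uAvg A τ f k =
      (1 / (τ : ℝ)) * (Pf A τ f k - Pf A 0 f k) := by
    rw [A_uAvg]
    simp only [uAvg]
    rw [← mul_sub, ← Finset.sum_sub_distrib, Finset.sum_range_sub (fun a => Pf A a f k)]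
  rw [e, mul_pow]
  have h1 : (Pf A τ f k - Pf A 0 f k) ^ 2 ≤ 1 := by
    have a1 := Pf_nonneg h τ hf0 k
    have a2 := Pf_le_of_le h τ hf1 k
    have a3 := Pf_nonneg h 0 hf0 k
    have a4 := Pf_le_of_le h 0 hf1 k
    have : |Pf A τ f k - Pf A 0 f k| ≤ 1 := by
      rw [abs_le]; constructor <;> linarith
    calc (Pf A τ f k - Pf A 0 f k) ^ 2 = |Pf A τ f k - Pf A 0 f k| ^ 2 := (sq_abs _).symm
      _ ≤ 1 ^ 2 := pow_le_pow_left₀ (abs_nonneg _) this 2
      _ = 1 := one_pow 2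
  calc (1 / (τ : ℝ)) ^ 2 * (Pf A τ f k - Pf A 0 f k) ^ 2 ≤ (1 / (τ : ℝ)) ^ 2 * 1 :=
        mul_le_mul_of_nonneg_left h1 (by positivity)
    _ = 1 / (τ : ℝ) ^ 2 := by
        rw [mul_one, div_pow, one_pow]

/-- Local energy estimate for the time average. -/
theorem local_energy (h : Chain w A) {τ : ℕ} (hτ : 0 < τ) {f : V → ℝ}
    (hf0 : ∀ k, 0 ≤ f k) (hf1 : ∀ k, f k ≤ 1) (i : V) :
    ∑ l ∈ range τ, Pf A l (fun k => ∑ q, A k q * (uAvg A τ f q - uAvg A τ f k) ^ 2) i ≤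
      1 / 2 + 1 / (τ : ℝ) := by
  have hτ' : (0 : ℝ) < τ := by exact_mod_cast hτ
  have hpt : ∀ l ∈ range τ, Pf A l (fun k => ∑ q, A k q * (uAvg A τ f q - uAvg A τ f k) ^ 2) i ≤
      (1 / (τ : ℝ)) * ∑ a ∈ range τ, Pf A l (Var1 A (Pf A a f)) i + 1 / (τ : ℝ) ^ 2 := by
    intro l _
    have hk : ∀ k, ∑ q, A k q * (uAvg A τ f q - uAvg A τ f k) ^ 2 ≤
        (1 / (τ : ℝ)) * (∑ a ∈ range τ, Var1 A (Pf A a f) k) + 1 / (τ : ℝ) ^ 2 := by
      intro k
      rw [Gamma_eq h]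
      exact add_le_add (Var1_uAvg_le h hτ f k) (drift_sq_le h hτ hf0 hf1 k)
    refine (Pf_mono h l hk i).trans ?_
    rw [Pf_add, Pf_const h]
    refine add_le_add (le_of_eq ?_) le_rfl
    simp only [Pf]
    exact sum_mul_avg _ _ _ _ _
  calc ∑ l ∈ range τ, Pf A l (fun k => ∑ q, A k q * (uAvg A τ f q - uAvg A τ f k) ^ 2) i
      ≤ ∑ l ∈ range τ, ((1 / (τ : ℝ)) * ∑ a ∈ range τ, Pf A l (Var1 A (Pf A a f)) i
          + 1 / (τ : ℝ) ^ 2) := Finset.sum_le_sum hpt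
    _ = (1 / (τ : ℝ)) * ∑ l ∈ range τ, ∑ a ∈ range τ, Pf A l (Var1 A (Pf A a f)) i
          + τ * (1 / (τ : ℝ) ^ 2) := by
        rw [Finset.sum_add_distrib, ← Finset.mul_sum]
        simp
    _ ≤ (1 / (τ : ℝ)) * ((τ : ℝ) / 2) + τ * (1 / (τ : ℝ) ^ 2) := by
        have := double_var_le h hf0 hf1 τ i
        exact add_le_add (mul_le_mul_of_nonneg_left this (by positivity)) le_rfl
    _ = 1 / 2 + 1 / (τ : ℝ) := by
        field_simp

end Crest.Agent.MarkovCotype
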