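import Crest.Agent.Lib.MarkovCotype.Cut

set_option autoImplicit false

open Finset

namespace Crest.Agent.MarkovCotype

/-- Reindexing the positions of all paths by the lengths of past and future. -/
theorem reindex_RR (t τ : ℕ) (hτ : 2 * τ ≤ t + 1) (G : ℕ → ℕ → ℝ) :
    ∑ s ∈ Icc 1 t, ∑ r ∈ RR τ s, G r (s - 1 - r) = ∑ a ∈ range τ, ∑ b ∈ range τ, G a b := by
  have e1 : ∀ s, ∑ r ∈ RR τ s, G r (s - 1 - r) =
      ∑ r ∈ (range s).filter (fun r => r < τ ∧ s - 1 - r < τ), G r (s - 1 - r) := by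
    intro s
    rw [RR, Finset.sum_filter, Finset.sum_filter]
    exact Fin.sum_univ_eq_sum_range
      (fun r => if r < τ ∧ s - 1 - r < τ then G r (s - 1 - r) else 0) s
  simp only [e1]
  rw [Finset.sum_sigma', ← Finset.sum_product' (range τ) (range τ) G]
  refine Finset.sum_nbij' (fun x => (x.2, x.1 - 1 - x.2)) (fun p => ⟨p.1 + p.2 + 1, p.1⟩)
    ?_ ?_ ?_ ?_ ?_
  · rintro ⟨s, r⟩ hx
    simp only [Finset.mem_sigma, Finset.mem_filter, Finset.mem_range, Finset.mem_Icc] at hx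
    simp only [Finset.mem_product, Finset.mem_range]
    omega
  · rintro ⟨a, b⟩ hp
    simp only [Finset.mem_product, Finset.mem_range] at hp
    simp only [Finset.mem_sigma, Finset.mem_filter, Finset.mem_range, Finset.mem_Icc]
    omega
  · rintro ⟨s, r⟩ hx
    simp only [Finset.mem_sigma, Finset.mem_filter, Finset.mem_range, Finset.mem_Icc] at hx
    have : r + (s - 1 - r) + 1 = s := by omega
    simp [this]
  · rintro ⟨a, b⟩ hp
    simp only [Prod.mk.injEq, true_and]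
    omega
  · rintro ⟨s, r⟩ hx
    rfl

theorem bil_sum (τ : ℕ) (p q : ℕ → ℝ) :
    ∑ a ∈ range τ, ∑ b ∈ range τ, (p a * (1 - q b) + (1 - p a) * q b) =
      (∑ a ∈ range τ, p a) * ((τ : ℝ) - ∑ b ∈ range τ, q b) +
        ((τ : ℝ) - ∑ a ∈ range τ, p a) * ∑ b ∈ range τ, q b := by
  have e : ∀ a, ∑ b ∈ range τ, (p a * (1 - q b) + (1 - p a) * q b) =
      p a * ((τ : ℝ) - ∑ b ∈ range τ, q b) + (1 - p a) * ∑ b ∈ range τ, q b := by
    intro a
    rw [Finset.sum_add_distrib, ← Finset.mul_sum, ← Finset.mul_sum, Finset.sum_sub_distrib]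
    simp
  simp only [e]
  rw [Finset.sum_add_distrib, ← Finset.sum_mul, ← Finset.sum_mul, Finset.sum_sub_distrib]
  simp

theorem sum_Icc_id (t : ℕ) : ∑ s ∈ Icc 1 t, (s : ℝ) = (t : ℝ) * (t + 1) / 2 := by
  induction t with
  | zero => simp
  | succ t ih =>
    rw [Finset.sum_Icc_succ_top (by omega), ih]
    push_cast
    ring

/-- The elementary inequality on one path, for one cut. -/
theorem single_ineq {κ : Type*} (R U : Finset κ) (hRU : R ⊆ U) (a b : κ → ℝ)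
    (ha : ∀ r, 0 ≤ a r) (hb : ∀ r, 0 ≤ b r) (P : ℝ) (hP : P = 0 ∨ P = 1) :
    (1 / 4) * P * (∑ r ∈ R, a r * b r) - (1 / 432) * (∑ m ∈ U, (b m) ^ 2) * (∑ r ∈ R, a r * b r)
      ≤ P * Real.sqrt (∑ m ∈ U, (a m) ^ 2) := by
  set S := ∑ r ∈ R, a r * b r with hS
  set X := ∑ m ∈ U, (b m) ^ 2 with hX
  set H := ∑ m ∈ U, (a m) ^ 2 with hH
  have hS0 : 0 ≤ S := Finset.sum_nonneg fun r _ => mul_nonneg (ha r) (hb r)
  have hX0 : 0 ≤ X := Finset.sum_nonneg fun r _ => sq_nonneg _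
  have hH0 : 0 ≤ H := Finset.sum_nonneg fun r _ => sq_nonneg _
  have hq0 := Real.sqrt_nonneg H
  rcases hP with rfl | rfl
  · have : 0 ≤ X * S := mul_nonneg hX0 hS0
    nlinarith
  · -- Cauchy--Schwarz
    have hCS : S ≤ Real.sqrt H * Real.sqrt X := by
      refine (Real.sum_mul_le_sqrt_mul_sqrt R a b).trans ?_
      apply mul_le_mul
      · exact Real.sqrt_le_sqrt (Finset.sum_le_sum_of_subset_of_nonneg hRU fun _ _ _ => sq_nonneg _)
      · exact Real.sqrt_le_sqrt (Finset.sum_le_sum_of_subset_of_nonneg hRU fun _ _ _ => sq_nonneg _)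
      · exact Real.sqrt_nonneg _
      · exact Real.sqrt_nonneg _
    set y := Real.sqrt X with hy
    set q := Real.sqrt H with hq
    have hy0 : 0 ≤ y := Real.sqrt_nonneg _
    have hXy : X = y ^ 2 := (Real.sq_sqrt hX0).symm
    rw [hXy]
    by_cases hc : 0 ≤ 1 / 4 - y ^ 2 / 432
    · have h1 : (1 / 4 - y ^ 2 / 432) * S ≤ (1 / 4 - y ^ 2 / 432) * (q * y) :=
        mul_le_mul_of_nonneg_left hCS hc
      have h2 : (1 / 4 - y ^ 2 / 432) * y ≤ 1 := by
        nlinarith [mul_nonneg (sq_nonneg (y - 6)) (add_nonneg hy0 (by norm_num : (0 : ℝ) ≤ 12))]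
      have h3 : q * ((1 / 4 - y ^ 2 / 432) * y) ≤ q * 1 := mul_le_mul_of_nonneg_left h2 hq0
      nlinarith
    · have hc' : 1 / 4 - y ^ 2 / 432 < 0 := lt_of_not_ge hc
      have : (1 / 4 - y ^ 2 / 432) * S ≤ 0 := mul_nonpos_of_nonpos_of_nonneg hc'.le hS0
      nlinarith

variable {V : Type*} [Fintype V] [DecidableEq V]
variable {w : V → ℝ} {A : Matrix V V ℝ}
variable {ι : Type*} [Fintype ι]

/-- The total increment. -/
noncomputable def EE (A : Matrix V V ℝ) (τ : ℕ) (g : ι → V → ℝ) (Λ : ι → ℝ) (i j : V) : ℝ :=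
  ∑ c, Λ c * ee A τ (g c) i j

/-- The total cut distance. -/
noncomputable def dd (g : ι → V → ℝ) (Λ : ι → ℝ) (k l : V) : ℝ :=
  ∑ c, Λ c * cutP (g c) k l

theorem EE_nonneg (A : Matrix V V ℝ) (τ : ℕ) (g : ι → V → ℝ) {Λ : ι → ℝ} (hΛ : ∀ c, 0 ≤ Λ c) (i j : V) :
    0 ≤ EE A τ g Λ i j :=
  Finset.sum_nonneg fun c _ => mul_nonneg (hΛ c) (ee_nonneg _ _ _ _ _)

/-- Pointwise inequality on a path, summed over the cuts. -/
theorem path_ineq {τ : ℕ} (g : ι → V → ℝ) (hg : ∀ c k, g c k = 0 ∨ g c k = 1)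
    (Λ : ι → ℝ) (hΛ : ∀ c, 0 ≤ Λ c) (s : ℕ) (z : Fin (s + 1) → V) :
    ∑ c, Λ c * ((1 / 4) * cutP (g c) (z 0) (z (Fin.last s)) *
          (∑ r ∈ RR τ s, EE A τ g Λ (z r.castSucc) (z r.succ) * ee A τ (g c) (z r.castSucc) (z r.succ)) -
        (1 / 432) * (∑ m : Fin s, (ee A τ (g c) (z m.castSucc) (z m.succ)) ^ 2) *
          (∑ r ∈ RR τ s, EE A τ g Λ (z r.castSucc) (z r.succ) * ee A τ (g c) (z r.castSucc) (z r.succ)))
      ≤ (1 / 2) * ((864 / 25) * (dd g Λ (z 0) (z (Fin.last s))) ^ 2 +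
          (25 / 864) * ∑ m : Fin s, (EE A τ g Λ (z m.castSucc) (z m.succ)) ^ 2) := by
  set H := ∑ m : Fin s, (EE A τ g Λ (z m.castSucc) (z m.succ)) ^ 2 with hH
  have h1 : ∀ c, (1 / 4) * cutP (g c) (z 0) (z (Fin.last s)) *
          (∑ r ∈ RR τ s, EE A τ g Λ (z r.castSucc) (z r.succ) * ee A τ (g c) (z r.castSucc) (z r.succ)) -
        (1 / 432) * (∑ m : Fin s, (ee A τ (g c) (z m.castSucc) (z m.succ)) ^ 2) *
          (∑ r ∈ RR τ s, EE A τ g Λ (z r.castSucc) (z r.succ) * ee A τ (g c) (z r.castSucc) (z r.succ))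
      ≤ cutP (g c) (z 0) (z (Fin.last s)) * Real.sqrt H := by
    intro c
    exact single_ineq (RR τ s) Finset.univ (Finset.subset_univ _)
      (fun m => EE A τ g Λ (z m.castSucc) (z m.succ))
      (fun m => ee A τ (g c) (z m.castSucc) (z m.succ))
      (fun m => EE_nonneg A τ g hΛ _ _) (fun m => ee_nonneg _ _ _ _ _)
      _ (cutP_cases (hg c) _ _)
  have h2 : ∑ c, Λ c * ((1 / 4) * cutP (g c) (z 0) (z (Fin.last s)) *
          (∑ r ∈ RR τ s, EE A τ g Λ (z r.castSucc) (z r.succ) * ee A τ (g c) (z r.castSucc) (z r.succ)) -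
        (1 / 432) * (∑ m : Fin s, (ee A τ (g c) (z m.castSucc) (z m.succ)) ^ 2) *
          (∑ r ∈ RR τ s, EE A τ g Λ (z r.castSucc) (z r.succ) * ee A τ (g c) (z r.castSucc) (z r.succ)))
      ≤ dd g Λ (z 0) (z (Fin.last s)) * Real.sqrt H := by
    simp only [dd, Finset.sum_mul]
    refine Finset.sum_le_sum fun c _ => ?_
    calc _ ≤ Λ c * (cutP (g c) (z 0) (z (Fin.last s)) * Real.sqrt H) :=
          mul_le_mul_of_nonneg_left (h1 c) (hΛ c)
      _ = _ := by ring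
  refine h2.trans ?_
  have hH0 : 0 ≤ H := Finset.sum_nonneg fun r _ => sq_nonneg _
  set q := Real.sqrt H with hq
  have hq2 : H = q ^ 2 := (Real.sq_sqrt hH0).symm
  rw [hq2]
  nlinarith [sq_nonneg ((864 / 25) * dd g Λ (z 0) (z (Fin.last s)) - q)]

/-- The main estimate at time `t`. -/
theorem core_bound (h : Chain w A) (g : ι → V → ℝ) (hg : ∀ c k, g c k = 0 ∨ g c k = 1)
    (Λ : ι → ℝ) (hΛ : ∀ c, 0 ≤ Λ c) (t τ : ℕ) (hτ : 18 ≤ τ) (h2 : 2 * τ ≤ t + 1) :
    (τ : ℝ) ^ 2 * (25 / 432) * ∑ i, ∑ j, w i * A i j * (EE A τ g Λ i j) ^ 2 ≤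
      (1 / 2) * ((864 / 25) * ∑ s ∈ Icc 1 t, ∑ k, ∑ l, w k * (A ^ s) k l * (dd g Λ k l) ^ 2 +
        (25 / 864) * (((t : ℝ) * (t + 1) / 2) * ∑ i, ∑ j, w i * A i j * (EE A τ g Λ i j) ^ 2)) := by
  set Y := ∑ i, ∑ j, w i * A i j * (EE A τ g Λ i j) ^ 2 with hY
  set E := EE A τ g Λ with hE
  have hg0 : ∀ c k, 0 ≤ g c k := fun c k => by rcases hg c k with e | e <;> rw [e] <;> norm_num
  have hg1 : ∀ c k, g c k ≤ 1 := fun c k => by rcases hg c k with e | e <;> rw [e] <;> norm_num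
  have hE0 : ∀ i j, 0 ≤ E i j := fun i j => EE_nonneg A τ g hΛ i j
  set ψ : ι → V → V → ℝ := fun c i j => E i j * ee A τ (g c) i j with hψ
  have hψ0 : ∀ c i j, 0 ≤ ψ c i j := fun c i j => mul_nonneg (hE0 i j) (ee_nonneg _ _ _ _ _)
  set G : ι → ℕ → ℕ → ℝ := fun c a b =>
    ∑ i, ∑ j, w i * (A i j * ψ c i j) * ((1 / 4) * Bil A (g c) a b i j - 11 / 432) with hG
  -- step for fixed path length
  have A1 : ∀ s, ∑ c, Λ c * ∑ r ∈ RR τ s, G c r (s - 1 - r) ≤
      (1 / 2) * ((864 / 25) * ∑ k, ∑ l, w k * (A ^ s) k l * (dd g Λ k l) ^ 2 +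
        (25 / 864) * ((s : ℝ) * Y)) := by
    intro s
    have b1 : ∀ c, Λ c * ∑ r ∈ RR τ s, G c r (s - 1 - r) ≤
        ∑ z : Fin (s + 1) → V, wt w A s z * (Λ c * ((1 / 4) * cutP (g c) (z 0) (z (Fin.last s)) *
            (∑ r ∈ RR τ s, E (z r.castSucc) (z r.succ) * ee A τ (g c) (z r.castSucc) (z r.succ)) -
          (1 / 432) * (∑ m : Fin s, (ee A τ (g c) (z m.castSucc) (z m.succ)) ^ 2) *
            (∑ r ∈ RR τ s, E (z r.castSucc) (z r.succ) * ee A τ (g c) (z r.castSucc) (z r.succ)))) := by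
      intro c
      have := mul_le_mul_of_nonneg_left
        (cut_lower h hτ (hg0 c) (hg1 c) s (ψ c) (hψ0 c)) (hΛ c)
      refine this.trans (le_of_eq ?_)
      rw [Finset.mul_sum]
      refine Finset.sum_congr rfl fun z _ => ?_
      ring
    calc ∑ c, Λ c * ∑ r ∈ RR τ s, G c r (s - 1 - r)
        ≤ ∑ c, ∑ z : Fin (s + 1) → V, wt w A s z * (Λ c * ((1 / 4) * cutP (g c) (z 0) (z (Fin.last s)) *
            (∑ r ∈ RR τ s, E (z r.castSucc) (z r.succ) * ee A τ (g c) (z r.castSucc) (z r.succ)) -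
          (1 / 432) * (∑ m : Fin s, (ee A τ (g c) (z m.castSucc) (z m.succ)) ^ 2) *
            (∑ r ∈ RR τ s, E (z r.castSucc) (z r.succ) * ee A τ (g c) (z r.castSucc) (z r.succ)))) :=
          Finset.sum_le_sum fun c _ => b1 c
      _ = ∑ z : Fin (s + 1) → V, wt w A s z * ∑ c, (Λ c * ((1 / 4) * cutP (g c) (z 0) (z (Fin.last s)) *
            (∑ r ∈ RR τ s, E (z r.castSucc) (z r.succ) * ee A τ (g c) (z r.castSucc) (z r.succ)) -
          (1 / 432) * (∑ m : Fin s, (ee A τ (g c) (z m.castSucc) (z m.succ)) ^ 2) *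
            (∑ r ∈ RR τ s, E (z r.castSucc) (z r.succ) * ee A τ (g c) (z r.castSucc) (z r.succ)))) := by
          rw [Finset.sum_comm]
          refine Finset.sum_congr rfl fun z _ => ?_
          rw [Finset.mul_sum]
      _ ≤ ∑ z : Fin (s + 1) → V, wt w A s z *
            ((1 / 2) * ((864 / 25) * (dd g Λ (z 0) (z (Fin.last s))) ^ 2 +
              (25 / 864) * ∑ m : Fin s, (E (z m.castSucc) (z m.succ)) ^ 2)) :=
          Finset.sum_le_sum fun z _ => mul_le_mul_of_nonneg_left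
            (path_ineq g hg Λ hΛ s z) (wt_nonneg h s z)
      _ = (1 / 2) * ((864 / 25) * ∑ z : Fin (s + 1) → V, wt w A s z * (dd g Λ (z 0) (z (Fin.last s))) ^ 2 +
            (25 / 864) * ∑ z : Fin (s + 1) → V, wt w A s z *
              ∑ m : Fin s, (E (z m.castSucc) (z m.succ)) ^ 2) := by
          rw [Finset.mul_sum (Finset.univ) _ (864 / 25 : ℝ), Finset.mul_sum (Finset.univ) _ (25 / 864 : ℝ),
            ← Finset.sum_add_distrib, Finset.mul_sum]
          refine Finset.sum_congr rfl fun z _ => ?_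
          ring
      _ = (1 / 2) * ((864 / 25) * ∑ k, ∑ l, w k * (A ^ s) k l * (dd g Λ k l) ^ 2 +
            (25 / 864) * ((s : ℝ) * Y)) := by
          have c1 := path_ends (w := w) (A := A) s (fun k l => (dd g Λ k l) ^ 2)
          have c2 : ∑ z : Fin (s + 1) → V, wt w A s z * ∑ m : Fin s, (E (z m.castSucc) (z m.succ)) ^ 2
              = (s : ℝ) * Y := by
            calc ∑ z : Fin (s + 1) → V, wt w A s z * ∑ m : Fin s, (E (z m.castSucc) (z m.succ)) ^ 2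
                = ∑ m : Fin s, ∑ z : Fin (s + 1) → V, wt w A s z * (E (z m.castSucc) (z m.succ)) ^ 2 := by
                  rw [Finset.sum_comm]
                  refine Finset.sum_congr rfl fun z _ => ?_
                  rw [Finset.mul_sum]
              _ = ∑ _m : Fin s, Y := by
                  refine Finset.sum_congr rfl fun m _ => ?_
                  refine (edge_stationary h s m (fun i j => (E i j) ^ 2)).trans ?_
                  refine Finset.sum_congr rfl fun i _ => Finset.sum_congr rfl fun j _ => ?_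
                  ring
              _ = (s : ℝ) * Y := by simp
          rw [c1, c2]
  -- sum over lengths
  have A2 : ∑ s ∈ Icc 1 t, ∑ c, Λ c * ∑ r ∈ RR τ s, G c r (s - 1 - r) =
      ∑ c, Λ c * ∑ a ∈ range τ, ∑ b ∈ range τ, G c a b := by
    rw [Finset.sum_comm]
    refine Finset.sum_congr rfl fun c _ => ?_
    rw [← Finset.mul_sum, reindex_RR t τ h2 (G c)]
  -- evaluation of the double sum
  have hτ0 : (τ : ℝ) ≠ 0 := by
    have : 0 < τ := by omega
    positivity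
  have A3 : ∀ c, (τ : ℝ) ^ 2 * (25 / 432) * ∑ i, ∑ j, w i * (A i j * ψ c i j) ≤
      ∑ a ∈ range τ, ∑ b ∈ range τ, G c a b := by
    intro c
    have e : ∑ a ∈ range τ, ∑ b ∈ range τ, G c a b =
        ∑ i, ∑ j, ∑ a ∈ range τ, ∑ b ∈ range τ,
          w i * (A i j * ψ c i j) * ((1 / 4) * Bil A (g c) a b i j - 11 / 432) := by
      simp only [hG]
      calc ∑ a ∈ range τ, ∑ b ∈ range τ, ∑ i, ∑ j,
            w i * (A i j * ψ c i j) * ((1 / 4) * Bil A (g c) a b i j - 11 / 432)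
          = ∑ a ∈ range τ, ∑ i, ∑ b ∈ range τ, ∑ j,
            w i * (A i j * ψ c i j) * ((1 / 4) * Bil A (g c) a b i j - 11 / 432) :=
            Finset.sum_congr rfl fun a _ => Finset.sum_comm
        _ = ∑ i, ∑ a ∈ range τ, ∑ b ∈ range τ, ∑ j,
            w i * (A i j * ψ c i j) * ((1 / 4) * Bil A (g c) a b i j - 11 / 432) := Finset.sum_comm
        _ = ∑ i, ∑ a ∈ range τ, ∑ j, ∑ b ∈ range τ,
            w i * (A i j * ψ c i j) * ((1 / 4) * Bil A (g c) a b i j - 11 / 432) :=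
            Finset.sum_congr rfl fun i _ => Finset.sum_congr rfl fun a _ => Finset.sum_comm
        _ = ∑ i, ∑ j, ∑ a ∈ range τ, ∑ b ∈ range τ,
            w i * (A i j * ψ c i j) * ((1 / 4) * Bil A (g c) a b i j - 11 / 432) :=
            Finset.sum_congr rfl fun i _ => Finset.sum_comm
    rw [e, Finset.mul_sum]
    refine Finset.sum_le_sum fun i _ => ?_
    rw [Finset.mul_sum]
    refine Finset.sum_le_sum fun j _ => ?_
    set x := uAvg A τ (g c) i with hx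
    set y := uAvg A τ (g c) j with hy
    have hτpos : 0 < τ := by omega
    have hx0 : 0 ≤ x := uAvg_nonneg h τ (hg0 c) i
    have hx1 : x ≤ 1 := uAvg_le_one h hτpos (hg1 c) i
    have hy0 : 0 ≤ y := uAvg_nonneg h τ (hg0 c) j
    have hy1 : y ≤ 1 := uAvg_le_one h hτpos (hg1 c) j
    have sx : ∑ a ∈ range τ, Pf A a (g c) i = τ * x := by
      simp only [hx, uAvg]; field_simp
    have sy : ∑ b ∈ range τ, Pf A b (g c) j = τ * y := by
      simp only [hy, uAvg]; field_simp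
    have e2 : ∑ a ∈ range τ, ∑ b ∈ range τ,
        w i * (A i j * ψ c i j) * ((1 / 4) * Bil A (g c) a b i j - 11 / 432) =
        w i * (A i j * ψ c i j) * ((τ : ℝ) ^ 2 * ((x * (1 - y) + (1 - x) * y) / 4 - 11 / 432)) := by
      have e3 : ∑ a ∈ range τ, ∑ b ∈ range τ, Bil A (g c) a b i j =
          (τ : ℝ) ^ 2 * (x * (1 - y) + (1 - x) * y) := by
        simp only [Bil]
        rw [bil_sum τ (fun a => Pf A a (g c) i) (fun b => Pf A b (g c) j), sx, sy]
        ring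
      have e4 : ∑ a ∈ range τ, ∑ b ∈ range τ,
          w i * (A i j * ψ c i j) * ((1 / 4) * Bil A (g c) a b i j - 11 / 432) =
          w i * (A i j * ψ c i j) * ((1 / 4) * (∑ a ∈ range τ, ∑ b ∈ range τ, Bil A (g c) a b i j) -
            (τ : ℝ) ^ 2 * (11 / 432)) := by
        simp only [← Finset.mul_sum]
        congr 1
        simp only [Finset.sum_sub_distrib, ← Finset.mul_sum, Finset.sum_const, card_range, nsmul_eq_mul]
        ring
      rw [e4, e3]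
      ring
    rw [e2]
    have hnn : 0 ≤ w i * (A i j * ψ c i j) :=
      mul_nonneg (h.w_nonneg i) (mul_nonneg (h.A_nonneg i j) (hψ0 c i j))
    by_cases hzero : ee A τ (g c) i j = 0
    · have : ψ c i j = 0 := by simp only [hψ, hzero, mul_zero]
      simp [this]
    · have hne : phi x ≠ phi y := by
        intro he
        apply hzero
        simp only [ee]
        rw [he, sub_self, abs_zero]
      have hs := sigma_lower hx0 hx1 hy0 hy1 hne
      have h4 : (25 : ℝ) / 432 ≤ (x * (1 - y) + (1 - x) * y) / 4 - 11 / 432 := by linarith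
      have h5 : (τ : ℝ) ^ 2 * (25 / 432) ≤ (τ : ℝ) ^ 2 * ((x * (1 - y) + (1 - x) * y) / 4 - 11 / 432) :=
        mul_le_mul_of_nonneg_left h4 (by positivity)
      calc (τ : ℝ) ^ 2 * (25 / 432) * (w i * (A i j * ψ c i j))
          = w i * (A i j * ψ c i j) * ((τ : ℝ) ^ 2 * (25 / 432)) := by ring
        _ ≤ _ := mul_le_mul_of_nonneg_left h5 hnn
  -- the total of the cuts is `Y`
  have A4 : ∑ c, Λ c * ∑ i, ∑ j, w i * (A i j * ψ c i j) = Y := by
    simp only [hY, Finset.mul_sum]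
    rw [Finset.sum_comm]
    refine Finset.sum_congr rfl fun i _ => ?_
    rw [Finset.sum_comm]
    refine Finset.sum_congr rfl fun j _ => ?_
    have : (E i j) ^ 2 = E i j * ∑ c, Λ c * ee A τ (g c) i j := by
      rw [sq]; rfl
    rw [this, Finset.mul_sum, Finset.mul_sum]
    refine Finset.sum_congr rfl fun c _ => ?_
    simp only [hψ]
    ring
  -- assemble
  have S1 : (τ : ℝ) ^ 2 * (25 / 432) * Y ≤ ∑ c, Λ c * ∑ a ∈ range τ, ∑ b ∈ range τ, G c a b := by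
    rw [← A4, Finset.mul_sum]
    refine Finset.sum_le_sum fun c _ => ?_
    calc (τ : ℝ) ^ 2 * (25 / 432) * (Λ c * ∑ i, ∑ j, w i * (A i j * ψ c i j))
        = Λ c * ((τ : ℝ) ^ 2 * (25 / 432) * ∑ i, ∑ j, w i * (A i j * ψ c i j)) := by ring
      _ ≤ _ := mul_le_mul_of_nonneg_left (A3 c) (hΛ c)
  refine S1.trans ?_
  rw [← A2]
  calc ∑ s ∈ Icc 1 t, ∑ c, Λ c * ∑ r ∈ RR τ s, G c r (s - 1 - r)
      ≤ ∑ s ∈ Icc 1 t, (1 / 2) * ((864 / 25) * ∑ k, ∑ l, w k * (A ^ s) k l * (dd g Λ k l) ^ 2 +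
        (25 / 864) * ((s : ℝ) * Y)) := Finset.sum_le_sum fun s _ => A1 s
    _ = (1 / 2) * ((864 / 25) * ∑ s ∈ Icc 1 t, ∑ k, ∑ l, w k * (A ^ s) k l * (dd g Λ k l) ^ 2 +
        (25 / 864) * (((t : ℝ) * (t + 1) / 2) * Y)) := by
        rw [← sum_Icc_id, Finset.sum_mul, ← Finset.mul_sum, Finset.sum_add_distrib, ← Finset.mul_sum,
          ← Finset.mul_sum]

/-- Jensen's inequality for a probability vector. -/
theorem jensen_prob {κ : Type*} (s : Finset κ) (p y : κ → ℝ) (hp : ∀ k ∈ s, 0 ≤ p k)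
    (hs : ∑ k ∈ s, p k = 1) : (∑ k ∈ s, p k * y k) ^ 2 ≤ ∑ k ∈ s, p k * (y k) ^ 2 := by
  set m := ∑ k ∈ s, p k * y k with hm
  have h0 : 0 ≤ ∑ k ∈ s, p k * (y k - m) ^ 2 :=
    Finset.sum_nonneg fun k hk => mul_nonneg (hp k hk) (sq_nonneg _)
  have h1 : ∑ k ∈ s, p k * (y k - m) ^ 2 =
      ∑ k ∈ s, p k * (y k) ^ 2 - 2 * m * ∑ k ∈ s, p k * y k + m ^ 2 * ∑ k ∈ s, p k := by
    have e1 : 2 * m * ∑ k ∈ s, p k * y k = ∑ k ∈ s, 2 * m * (p k * y k) := Finset.mul_sum _ _ _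
    have e2 : m ^ 2 * ∑ k ∈ s, p k = ∑ k ∈ s, m ^ 2 * p k := Finset.mul_sum _ _ _
    rw [e1, e2, ← Finset.sum_sub_distrib, ← Finset.sum_add_distrib]
    refine Finset.sum_congr rfl fun k _ => ?_
    ring
  rw [h1, hs, ← hm] at h0
  nlinarith

/-- The deviation of a cut function from the clipped average. -/
theorem cut_avg_dev (h : Chain w A) {τ : ℕ} (hτ : 0 < τ) {g : V → ℝ}
    (hg : ∀ k, g k = 0 ∨ g k = 1) (i : V) :
    |g i - phi (uAvg A τ g i)| ≤
      3 * ((1 / (τ : ℝ)) * ∑ a ∈ range τ, ∑ k, (A ^ a) i k * cutP g i k) := by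
  have hτ0 : (τ : ℝ) ≠ 0 := by positivity
  have h1 : phi (g i) = g i := by
    rcases hg i with e | e <;> rw [e]
    · exact phi_zero
    · exact phi_one
  have h2 : |g i - phi (uAvg A τ g i)| ≤ 3 * |g i - uAvg A τ g i| := by
    have := phi_lip (g i) (uAvg A τ g i)
    rwa [h1] at this
  refine h2.trans (mul_le_mul_of_nonneg_left ?_ (by norm_num))
  have h3 : g i - uAvg A τ g i =
      (1 / (τ : ℝ)) * ∑ a ∈ range τ, ∑ k, (A ^ a) i k * (g i - g k) := by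
    have e : ∀ a, ∑ k, (A ^ a) i k * (g i - g k) = g i - Pf A a g i := by
      intro a
      simp only [mul_sub, Finset.sum_sub_distrib, Pf]
      rw [← Finset.sum_mul, h.pow_sum, one_mul]
    simp only [e, uAvg]
    rw [Finset.sum_sub_distrib]
    simp only [Finset.sum_const, card_range, nsmul_eq_mul]
    field_simp
  rw [h3, abs_mul, abs_of_nonneg (by positivity : (0 : ℝ) ≤ 1 / (τ : ℝ))]
  refine mul_le_mul_of_nonneg_left ?_ (by positivity)
  refine (Finset.abs_sum_le_sum_abs _ _).trans (Finset.sum_le_sum fun a _ => ?_)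
  refine (Finset.abs_sum_le_sum_abs _ _).trans (Finset.sum_le_sum fun k _ => ?_)
  rw [abs_mul, abs_of_nonneg (h.pow_nonneg a i k), cutP_eq_abs hg]

theorem dev_total (h : Chain w A) {τ : ℕ} (hτ : 0 < τ) (g : ι → V → ℝ)
    (hg : ∀ c k, g c k = 0 ∨ g c k = 1) (Λ : ι → ℝ) (hΛ : ∀ c, 0 ≤ Λ c) (i : V) :
    ∑ c, Λ c * |g c i - phi (uAvg A τ (g c) i)| ≤
      3 * ((1 / (τ : ℝ)) * ∑ a ∈ range τ, ∑ k, (A ^ a) i k * dd g Λ i k) := by
  have e : 3 * ((1 / (τ : ℝ)) * ∑ a ∈ range τ, ∑ k, (A ^ a) i k * dd g Λ i k) =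
      ∑ c, Λ c * (3 * ((1 / (τ : ℝ)) * ∑ a ∈ range τ, ∑ k, (A ^ a) i k * cutP (g c) i k)) := by
    have e1 : ∀ a, ∑ k, (A ^ a) i k * dd g Λ i k = ∑ c, Λ c * ∑ k, (A ^ a) i k * cutP (g c) i k := by
      intro a
      simp only [dd, Finset.mul_sum]
      rw [Finset.sum_comm]
      refine Finset.sum_congr rfl fun c _ => Finset.sum_congr rfl fun k _ => ?_
      ring
    simp only [e1]
    rw [Finset.sum_comm, Finset.mul_sum, Finset.mul_sum]
    refine Finset.sum_congr rfl fun c _ => ?_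
    rw [← Finset.mul_sum]
    ring
  rw [e]
  exact Finset.sum_le_sum fun c _ => mul_le_mul_of_nonneg_left (cut_avg_dev h hτ (hg c) i) (hΛ c)

theorem dd_nonneg (g : ι → V → ℝ) (hg : ∀ c k, g c k = 0 ∨ g c k = 1) {Λ : ι → ℝ}
    (hΛ : ∀ c, 0 ≤ Λ c) (k l : V) : 0 ≤ dd g Λ k l :=
  Finset.sum_nonneg fun c _ => mul_nonneg (hΛ c) (by
    rcases cutP_cases (hg c) k l with e | e <;> rw [e] <;> norm_num)

theorem dd_self (g : ι → V → ℝ) (hg : ∀ c k, g c k = 0 ∨ g c k = 1) (Λ : ι → ℝ) (k : V) :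
    dd g Λ k k = 0 := by
  simp only [dd]
  exact Finset.sum_eq_zero fun c _ => by rw [cutP_self (hg c), mul_zero]

/-- The first term of the Markov cotype inequality. -/
theorem core_first (h : Chain w A) (g : ι → V → ℝ) (hg : ∀ c k, g c k = 0 ∨ g c k = 1)
    (Λ : ι → ℝ) (hΛ : ∀ c, 0 ≤ Λ c) (t τ : ℕ) (hτ : 0 < τ) (ht : τ ≤ t + 1) :
    ∑ i, w i * (∑ c, Λ c * |g c i - phi (uAvg A τ (g c) i)|) ^ 2 ≤
      (9 / (τ : ℝ)) * ∑ s ∈ Icc 1 t, ∑ k, ∑ l, w k * (A ^ s) k l * (dd g Λ k l) ^ 2 := by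
  have hτ0 : (τ : ℝ) ≠ 0 := by positivity
  set F : ℕ → ℝ := fun s => ∑ k, ∑ l, w k * (A ^ s) k l * (dd g Λ k l) ^ 2 with hF
  have hF0 : ∀ s, 0 ≤ F s := fun s => Finset.sum_nonneg fun k _ => Finset.sum_nonneg fun l _ =>
    mul_nonneg (mul_nonneg (h.w_nonneg k) (h.pow_nonneg s k l)) (sq_nonneg _)
  have hFz : F 0 = 0 := by
    simp only [hF]
    refine Finset.sum_eq_zero fun k _ => Finset.sum_eq_zero fun l _ => ?_
    by_cases hkl : k = l
    · subst hkl; rw [dd_self g hg]; simp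
    · simp [hkl]
  have hsum : ∑ a ∈ range τ, F a ≤ ∑ s ∈ Icc 1 t, F s := by
    have : ∑ a ∈ range τ, F a = ∑ a ∈ (range τ).erase 0, F a := by
      by_cases h0 : (0 : ℕ) ∈ range τ
      · rw [← Finset.add_sum_erase _ _ h0, hFz, zero_add]
      · rw [Finset.erase_eq_of_notMem h0]
    rw [this]
    refine Finset.sum_le_sum_of_subset_of_nonneg ?_ fun s _ _ => hF0 s
    intro a ha
    simp only [Finset.mem_erase, Finset.mem_range] at ha
    simp only [Finset.mem_Icc]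
    omega
  have hpt : ∀ i, (∑ c, Λ c * |g c i - phi (uAvg A τ (g c) i)|) ^ 2 ≤
      (9 / (τ : ℝ)) * ∑ a ∈ range τ, ∑ k, (A ^ a) i k * (dd g Λ i k) ^ 2 := by
    intro i
    have h0 : 0 ≤ ∑ c, Λ c * |g c i - phi (uAvg A τ (g c) i)| :=
      Finset.sum_nonneg fun c _ => mul_nonneg (hΛ c) (abs_nonneg _)
    have h1 := pow_le_pow_left₀ h0 (dev_total h hτ g hg Λ hΛ i) 2
    refine h1.trans ?_
    set Q : ℕ → ℝ := fun a => ∑ k, (A ^ a) i k * dd g Λ i k with hQ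
    have h2 : ∀ a, (Q a) ^ 2 ≤ ∑ k, (A ^ a) i k * (dd g Λ i k) ^ 2 := fun a =>
      jensen_prob Finset.univ (fun k => (A ^ a) i k) (fun k => dd g Λ i k)
        (fun k _ => h.pow_nonneg a i k) (h.pow_sum a i)
    have h3 := jensen_prob (range τ) (fun _ => 1 / (τ : ℝ)) Q (fun _ _ => by positivity)
      (by simp only [Finset.sum_const, card_range, nsmul_eq_mul]; field_simp)
    simp only [← Finset.mul_sum] at h3
    calc (3 * ((1 / (τ : ℝ)) * ∑ a ∈ range τ, Q a)) ^ 2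
        = 9 * ((1 / (τ : ℝ)) * ∑ a ∈ range τ, Q a) ^ 2 := by ring
      _ ≤ 9 * ((1 / (τ : ℝ)) * ∑ a ∈ range τ, (Q a) ^ 2) :=
          mul_le_mul_of_nonneg_left h3 (by norm_num)
      _ ≤ 9 * ((1 / (τ : ℝ)) * ∑ a ∈ range τ, ∑ k, (A ^ a) i k * (dd g Λ i k) ^ 2) := by
          refine mul_le_mul_of_nonneg_left (mul_le_mul_of_nonneg_left
            (Finset.sum_le_sum fun a _ => h2 a) (by positivity)) (by norm_num)
      _ = _ := by ring
  calc ∑ i, w i * (∑ c, Λ c * |g c i - phi (uAvg A τ (g c) i)|) ^ 2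
      ≤ ∑ i, w i * ((9 / (τ : ℝ)) * ∑ a ∈ range τ, ∑ k, (A ^ a) i k * (dd g Λ i k) ^ 2) :=
        Finset.sum_le_sum fun i _ => mul_le_mul_of_nonneg_left (hpt i) (h.w_nonneg i)
    _ = (9 / (τ : ℝ)) * ∑ a ∈ range τ, F a := by
        simp only [hF, Finset.mul_sum]
        rw [Finset.sum_comm]
        refine Finset.sum_congr rfl fun a _ => Finset.sum_congr rfl fun i _ =>
          Finset.sum_congr rfl fun k _ => ?_
        ring
    _ ≤ (9 / (τ : ℝ)) * ∑ s ∈ Icc 1 t, F s :=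
        mul_le_mul_of_nonneg_left hsum (by positivity)

/-- The Markov cotype inequality for positive combinations of cuts, `t ≥ 55`. -/
theorem core_total (h : Chain w A) (g : ι → V → ℝ) (hg : ∀ c k, g c k = 0 ∨ g c k = 1)
    (Λ : ι → ℝ) (hΛ : ∀ c, 0 ≤ Λ c) (t : ℕ) (ht : 55 ≤ t) :
    ∑ i, w i * (∑ c, Λ c * |g c i - phi (uAvg A ((t + 1) / 2) (g c) i)|) ^ 2 +
      (t : ℝ) * ∑ i, ∑ j, w i * A i j * (EE A ((t + 1) / 2) g Λ i j) ^ 2 ≤
    3024 * ((1 / (t : ℝ)) * ∑ s ∈ Icc 1 t, ∑ k, ∑ l, w k * (A ^ s) k l * (dd g Λ k l) ^ 2) := by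
  set τ := (t + 1) / 2 with hτdef
  have h18 : 18 ≤ τ := by omega
  have h2t : 2 * τ ≤ t + 1 := by omega
  have h3t : t ≤ 2 * τ := by omega
  have hb := core_bound h g hg Λ hΛ t τ h18 h2t
  have hf := core_first h g hg Λ hΛ t τ (by omega) (by omega)
  set Y := ∑ i, ∑ j, w i * A i j * (EE A τ g Λ i j) ^ 2 with hY
  set Dsum := ∑ s ∈ Icc 1 t, ∑ k, ∑ l, w k * (A ^ s) k l * (dd g Λ k l) ^ 2 with hD
  set X := ∑ i, w i * (∑ c, Λ c * |g c i - phi (uAvg A τ (g c) i)|) ^ 2 with hX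
  have hY0 : 0 ≤ Y := Finset.sum_nonneg fun i _ => Finset.sum_nonneg fun j _ =>
    mul_nonneg (mul_nonneg (h.w_nonneg i) (h.A_nonneg i j)) (sq_nonneg _)
  have hD0 : 0 ≤ Dsum := Finset.sum_nonneg fun s _ => Finset.sum_nonneg fun k _ =>
    Finset.sum_nonneg fun l _ =>
      mul_nonneg (mul_nonneg (h.w_nonneg k) (h.pow_nonneg s k l)) (sq_nonneg _)
  have hT : (55 : ℝ) ≤ t := by exact_mod_cast ht
  have hT1 : (t : ℝ) ≤ 2 * τ := by exact_mod_cast h3t
  have hT2 : 2 * (τ : ℝ) ≤ t + 1 := by exact_mod_cast h2t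
  have hτpos : (0 : ℝ) < τ := by
    have : 0 < τ := by omega
    exact_mod_cast this
  have hTpos : (0 : ℝ) < t := by linarith
  -- the first term
  have hf' : X ≤ (18 / (t : ℝ)) * Dsum := by
    refine hf.trans (mul_le_mul_of_nonneg_right ?_ hD0)
    rw [div_le_div_iff₀ hτpos hTpos]
    linarith
  -- the second term
  have hs1 : (t : ℝ) ^ 2 / 4 ≤ (τ : ℝ) ^ 2 := by nlinarith
  have hs2 : (t : ℝ) ^ 2 / 4 * (25 / 432) * Y ≤ (τ : ℝ) ^ 2 * (25 / 432) * Y := by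
    refine mul_le_mul_of_nonneg_right ?_ hY0
    exact mul_le_mul_of_nonneg_right hs1 (by norm_num)
  have hs3 : (25 / 3456 : ℝ) * ((t : ℝ) * (t - 1) * Y) ≤ (432 / 25) * Dsum := by
    have e : (1 / 2 : ℝ) * ((864 / 25) * Dsum + (25 / 864) * (((t : ℝ) * (t + 1) / 2) * Y)) =
        (432 / 25) * Dsum + (25 / 3456) * ((t : ℝ) * (t + 1) * Y) := by ring
    rw [e] at hb
    have e2 : (t : ℝ) ^ 2 / 4 * (25 / 432) * Y = (25 / 3456) * (2 * ((t : ℝ) ^ 2 * Y)) := by ring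
    rw [e2] at hs2
    nlinarith
  have hs4 : (t : ℝ) * ((t : ℝ) * Y) ≤ 2434 * Dsum := by
    have h5 : (t : ℝ) * (t * Y) ≤ (55 / 54) * ((t : ℝ) * (t - 1) * Y) := by
      have : 0 ≤ (t : ℝ) * Y := mul_nonneg hTpos.le hY0
      nlinarith
    have h6 : (t : ℝ) * (t - 1) * Y ≤ (432 / 25) * (3456 / 25) * Dsum := by nlinarith
    nlinarith
  have hs5 : (t : ℝ) * Y ≤ 2434 * ((1 / (t : ℝ)) * Dsum) := by
    have : 2434 * ((1 / (t : ℝ)) * Dsum) = (2434 * Dsum) / t := by field_simp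
    rw [this, le_div_iff₀ hTpos]
    linarith
  have hs6 : (18 / (t : ℝ)) * Dsum = 18 * ((1 / (t : ℝ)) * Dsum) := by ring
  have hDD : 0 ≤ (1 / (t : ℝ)) * Dsum := by positivity
  rw [hs6] at hf'
  linarith

end Crest.Agent.MarkovCotype
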