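import Crest.Agent.Lib.MarkovCotype.Eval

set_option autoImplicit false

open Finset

namespace Crest.Agent.MarkovCotype

/-- The clipped linear function used for the trimmed mean. -/
noncomputable def phi (x : ℝ) : ℝ := max 0 (min 1 (3 * x - 1))

theorem phi_zero : phi 0 = 0 := by norm_num [phi]
theorem phi_one : phi 1 = 1 := by norm_num [phi]
theorem phi_nonneg (x : ℝ) : 0 ≤ phi x := le_max_left _ _
theorem phi_le_one (x : ℝ) : phi x ≤ 1 := max_le zero_le_one (min_le_left _ _)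

theorem phi_lip (x y : ℝ) : |phi x - phi y| ≤ 3 * |x - y| := by
  have h1 := le_abs_self (x - y)
  have h2 := neg_abs_le (x - y)
  rw [abs_le]
  unfold phi
  constructor <;> (simp only [max_def, min_def]; split_ifs <;> linarith)

theorem phi_eq_of_le {x y : ℝ} (hx : x ≤ 1 / 3) (hy : y ≤ 1 / 3) : phi x = phi y := by
  unfold phi
  have h1 : min 1 (3 * x - 1) ≤ 0 := (min_le_right _ _).trans (by linarith)
  have h2 : min 1 (3 * y - 1) ≤ 0 := (min_le_right _ _).trans (by linarith)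
  rw [max_eq_left h1, max_eq_left h2]

theorem phi_eq_of_ge {x y : ℝ} (hx : 2 / 3 ≤ x) (hy : 2 / 3 ≤ y) : phi x = phi y := by
  unfold phi
  have h1 : min 1 (3 * x - 1) = 1 := min_eq_left (by linarith)
  have h2 : min 1 (3 * y - 1) = 1 := min_eq_left (by linarith)
  rw [h1, h2]

/-- If the clipped values differ then the pair is balanced. -/
theorem sigma_lower {x y : ℝ} (hx0 : 0 ≤ x) (hx1 : x ≤ 1) (hy0 : 0 ≤ y) (hy1 : y ≤ 1)
    (hne : phi x ≠ phi y) : 1 / 3 ≤ x * (1 - y) + (1 - x) * y := by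
  have h1 : 1 / 3 < x ∨ 1 / 3 < y := by
    by_contra hc
    simp only [not_or, not_lt] at hc
    exact hne (phi_eq_of_le hc.1 hc.2)
  have h2 : x < 2 / 3 ∨ y < 2 / 3 := by
    by_contra hc
    simp only [not_or, not_lt] at hc
    exact hne (phi_eq_of_ge hc.1 hc.2)
  rcases h1 with h1 | h1 <;> rcases h2 with h2 | h2
  · nlinarith [mul_nonneg (sub_nonneg.2 h1.le) (sub_nonneg.2 hy1), mul_nonneg (sub_nonneg.2 h2.le) hy0]
  · nlinarith [mul_nonneg (sub_nonneg.2 h1.le) (sub_nonneg.2 h2.le), mul_nonneg (sub_nonneg.2 hx1) hy0]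
  · nlinarith [mul_nonneg (sub_nonneg.2 h1.le) (sub_nonneg.2 h2.le), mul_nonneg (sub_nonneg.2 hy1) hx0]
  · nlinarith [mul_nonneg (sub_nonneg.2 h1.le) (sub_nonneg.2 hx1), mul_nonneg (sub_nonneg.2 h2.le) hx0]

variable {V : Type*} [Fintype V] [DecidableEq V]
variable {w : V → ℝ} {A : Matrix V V ℝ}

/-- Increment of the clipped average along a pair of states. -/
noncomputable def ee (A : Matrix V V ℝ) (τ : ℕ) (g : V → ℝ) (i j : V) : ℝ :=
  |phi (uAvg A τ g i) - phi (uAvg A τ g j)|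

theorem ee_nonneg (A : Matrix V V ℝ) (τ : ℕ) (g : V → ℝ) (i j : V) : 0 ≤ ee A τ g i j := abs_nonneg _

theorem ee_symm (A : Matrix V V ℝ) (τ : ℕ) (g : V → ℝ) (i j : V) : ee A τ g i j = ee A τ g j i :=
  abs_sub_comm _ _

theorem ee_le_one (A : Matrix V V ℝ) (τ : ℕ) (g : V → ℝ) (i j : V) : ee A τ g i j ≤ 1 := by
  unfold ee
  rw [abs_le]
  constructor <;> linarith [phi_nonneg (uAvg A τ g i), phi_nonneg (uAvg A τ g j),
    phi_le_one (uAvg A τ g i), phi_le_one (uAvg A τ g j)]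

theorem ee_sq_le (A : Matrix V V ℝ) (τ : ℕ) (g : V → ℝ) (i j : V) :
    (ee A τ g i j) ^ 2 ≤ 9 * (uAvg A τ g j - uAvg A τ g i) ^ 2 := by
  have h1 : ee A τ g i j ≤ 3 * |uAvg A τ g i - uAvg A τ g j| := phi_lip _ _
  have h2 := ee_nonneg A τ g i j
  calc (ee A τ g i j) ^ 2 ≤ (3 * |uAvg A τ g i - uAvg A τ g j|) ^ 2 :=
        pow_le_pow_left₀ h2 h1 2
    _ = 9 * (uAvg A τ g i - uAvg A τ g j) ^ 2 := by rw [mul_pow, sq_abs]; norm_num
    _ = 9 * (uAvg A τ g j - uAvg A τ g i) ^ 2 := by ring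

/-- The local energy of the increments. -/
noncomputable def gg (A : Matrix V V ℝ) (τ : ℕ) (g : V → ℝ) (k : V) : ℝ :=
  ∑ q, A k q * (ee A τ g k q) ^ 2

theorem gg_nonneg (h : Chain w A) (τ : ℕ) (g : V → ℝ) (k : V) : 0 ≤ gg A τ g k :=
  Finset.sum_nonneg fun q _ => mul_nonneg (h.A_nonneg k q) (sq_nonneg _)

theorem Pf_mul (s : ℕ) (c : ℝ) (f : V → ℝ) (i : V) :
    Pf A s (fun k => c * f k) i = c * Pf A s f i := by
  simp only [Pf, Finset.mul_sum]
  refine Finset.sum_congr rfl fun j _ => ?_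
  ring

theorem gg_local (h : Chain w A) {τ : ℕ} (hτ : 18 ≤ τ) {g : V → ℝ}
    (hg0 : ∀ k, 0 ≤ g k) (hg1 : ∀ k, g k ≤ 1) (i : V) :
    ∑ l ∈ range τ, Pf A l (gg A τ g) i ≤ 5 := by
  have hτ0 : 0 < τ := by omega
  have hτ' : (18 : ℝ) ≤ τ := by exact_mod_cast hτ
  have h1 : ∀ k, gg A τ g k ≤ 9 * ∑ q, A k q * (uAvg A τ g q - uAvg A τ g k) ^ 2 := by
    intro k
    simp only [gg]
    rw [Finset.mul_sum]
    refine Finset.sum_le_sum fun q _ => ?_
    calc A k q * (ee A τ g k q) ^ 2 ≤ A k q * (9 * (uAvg A τ g q - uAvg A τ g k) ^ 2) :=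
          mul_le_mul_of_nonneg_left (ee_sq_le A τ g k q) (h.A_nonneg k q)
      _ = 9 * (A k q * (uAvg A τ g q - uAvg A τ g k) ^ 2) := by ring
  have h2 := local_energy h hτ0 hg0 hg1 i
  calc ∑ l ∈ range τ, Pf A l (gg A τ g) i
      ≤ ∑ l ∈ range τ, 9 * Pf A l (fun k => ∑ q, A k q * (uAvg A τ g q - uAvg A τ g k) ^ 2) i := by
        refine Finset.sum_le_sum fun l _ => ?_
        rw [← Pf_mul]
        exact Pf_mono h l h1 i
    _ = 9 * ∑ l ∈ range τ, Pf A l (fun k => ∑ q, A k q * (uAvg A τ g q - uAvg A τ g k) ^ 2) i := by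
        rw [Finset.mul_sum]
    _ ≤ 9 * (1 / 2 + 1 / (τ : ℝ)) := by linarith
    _ ≤ 5 := by
        have : 1 / (τ : ℝ) ≤ 1 / 18 := one_div_le_one_div_of_le (by norm_num) hτ'
        linarith

/-- The cut indicator between two states. -/
def cutP (g : V → ℝ) (k l : V) : ℝ := g k * (1 - g l) + (1 - g k) * g l

theorem cutP_cases {g : V → ℝ} (hg : ∀ k, g k = 0 ∨ g k = 1) (k l : V) :
    cutP g k l = 0 ∨ cutP g k l = 1 := by
  unfold cutP
  rcases hg k with h1 | h1 <;> rcases hg l with h2 | h2 <;> simp [h1, h2]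

theorem cutP_eq_abs {g : V → ℝ} (hg : ∀ k, g k = 0 ∨ g k = 1) (k l : V) :
    cutP g k l = |g k - g l| := by
  unfold cutP
  rcases hg k with h1 | h1 <;> rcases hg l with h2 | h2 <;> simp [h1, h2]

theorem cutP_self {g : V → ℝ} (hg : ∀ k, g k = 0 ∨ g k = 1) (k : V) : cutP g k k = 0 := by
  rw [cutP_eq_abs hg]; simp

/-- The bilinear form behind the probability that the two ends are separated. -/
noncomputable def Bil (A : Matrix V V ℝ) (g : V → ℝ) (a b : ℕ) (i j : V) : ℝ :=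
  Pf A a g i * (1 - Pf A b g j) + (1 - Pf A a g i) * Pf A b g j

theorem edge_cut (h : Chain w A) (s : ℕ) (r : Fin s) (ψ : V → V → ℝ) (g : V → ℝ) :
    ∑ z : Fin (s + 1) → V,
        wt w A s z * (ψ (z r.castSucc) (z r.succ) * cutP g (z 0) (z (Fin.last s)))
      = ∑ i, ∑ j, w i * (A i j * ψ i j) * Bil A g r (s - 1 - r) i j := by
  have e1 := edge_expect h s r ψ g (fun k => 1 - g k)
  have e2 := edge_expect h s r ψ (fun k => 1 - g k) g
  have e3 : ∀ n i, Pf A n (fun k => 1 - g k) i = 1 - Pf A n g i := by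
    intro n i
    rw [Pf_sub, Pf_const h]
  calc ∑ z : Fin (s + 1) → V,
        wt w A s z * (ψ (z r.castSucc) (z r.succ) * cutP g (z 0) (z (Fin.last s)))
      = ∑ z : Fin (s + 1) → V,
          wt w A s z * (ψ (z r.castSucc) (z r.succ) * (g (z 0) * (1 - g (z (Fin.last s))))) +
        ∑ z : Fin (s + 1) → V,
          wt w A s z * (ψ (z r.castSucc) (z r.succ) * ((1 - g (z 0)) * g (z (Fin.last s)))) := by
        rw [← Finset.sum_add_distrib]
        refine Finset.sum_congr rfl fun z _ => ?_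
        simp only [cutP]
        ring
    _ = ∑ i, ∑ j, w i * (A i j * ψ i j) * Bil A g r (s - 1 - r) i j := by
        rw [e1, e2, ← Finset.sum_add_distrib]
        refine Finset.sum_congr rfl fun i _ => ?_
        rw [← Finset.sum_add_distrib]
        refine Finset.sum_congr rfl fun j _ => ?_
        simp only [e3, Bil]
        ring

/-- Positions of the path whose past and future both have length below `τ`. -/
def RR (τ s : ℕ) : Finset (Fin s) :=
  Finset.univ.filter fun r => (r : ℕ) < τ ∧ s - 1 - (r : ℕ) < τ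

theorem edge_X_le (h : Chain w A) {τ : ℕ} (hτ : 18 ≤ τ) {g : V → ℝ}
    (hg0 : ∀ k, 0 ≤ g k) (hg1 : ∀ k, g k ≤ 1) (s : ℕ) (r : Fin s) (hr : r ∈ RR τ s)
    (ψ : V → V → ℝ) (hψ : ∀ i j, 0 ≤ ψ i j) :
    ∑ z : Fin (s + 1) → V,
        wt w A s z * ((∑ m : Fin s, (ee A τ g (z m.castSucc) (z m.succ)) ^ 2) *
          ψ (z r.castSucc) (z r.succ))
      ≤ 11 * ∑ i, ∑ j, w i * (A i j * ψ i j) := by
  have hr' := (Finset.mem_filter.mp hr).2
  have key := edge_total h s r (fun i j => (ee A τ g i j) ^ 2) ψ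
    (fun i j => by simp only [ee_symm A τ g i j])
  rw [key, Finset.mul_sum]
  refine Finset.sum_le_sum fun i _ => ?_
  rw [Finset.mul_sum]
  refine Finset.sum_le_sum fun j _ => ?_
  have hnn : 0 ≤ w i * (A i j * ψ i j) :=
    mul_nonneg (h.w_nonneg i) (mul_nonneg (h.A_nonneg i j) (hψ i j))
  have hgg : (fun b => ∑ a, A b a * (ee A τ g b a) ^ 2) = gg A τ g := rfl
  rw [hgg]
  have b1 : ∑ l ∈ range (r : ℕ), Pf A l (gg A τ g) i ≤ 5 := by
    refine le_trans ?_ (gg_local h hτ hg0 hg1 i)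
    apply Finset.sum_le_sum_of_subset_of_nonneg
    · intro l hl
      simp only [Finset.mem_range] at hl ⊢
      omega
    · intro l _ _
      exact Pf_nonneg h l (gg_nonneg h τ g) i
  have b2 : ∑ l ∈ range (s - 1 - (r : ℕ)), Pf A l (gg A τ g) j ≤ 5 := by
    refine le_trans ?_ (gg_local h hτ hg0 hg1 j)
    apply Finset.sum_le_sum_of_subset_of_nonneg
    · intro l hl
      simp only [Finset.mem_range] at hl ⊢
      omega
    · intro l _ _
      exact Pf_nonneg h l (gg_nonneg h τ g) j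
  have b3 : (ee A τ g i j) ^ 2 ≤ 1 := by
    have := ee_le_one A τ g i j
    have := ee_nonneg A τ g i j
    nlinarith
  calc w i * (A i j * ψ i j) * (∑ l ∈ range (r : ℕ), Pf A l (gg A τ g) i + (ee A τ g i j) ^ 2 +
        ∑ l ∈ range (s - 1 - (r : ℕ)), Pf A l (gg A τ g) j)
      ≤ w i * (A i j * ψ i j) * 11 := mul_le_mul_of_nonneg_left (by linarith) hnn
    _ = 11 * (w i * (A i j * ψ i j)) := by ring

/-- The expected value of the linearised path functional for one cut. -/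
theorem cut_lower (h : Chain w A) {τ : ℕ} (hτ : 18 ≤ τ) {g : V → ℝ}
    (hg0 : ∀ k, 0 ≤ g k) (hg1 : ∀ k, g k ≤ 1) (s : ℕ) (ψ : V → V → ℝ) (hψ : ∀ i j, 0 ≤ ψ i j) :
    ∑ r ∈ RR τ s, ∑ i, ∑ j, w i * (A i j * ψ i j) * ((1 / 4) * Bil A g r (s - 1 - r) i j - 11 / 432)
      ≤ ∑ z : Fin (s + 1) → V, wt w A s z *
          ((1 / 4) * cutP g (z 0) (z (Fin.last s)) *
              (∑ r ∈ RR τ s, ψ (z r.castSucc) (z r.succ)) -
            (1 / 432) * (∑ m : Fin s, (ee A τ g (z m.castSucc) (z m.succ)) ^ 2) *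
              (∑ r ∈ RR τ s, ψ (z r.castSucc) (z r.succ))) := by
  have e : ∑ z : Fin (s + 1) → V, wt w A s z *
          ((1 / 4) * cutP g (z 0) (z (Fin.last s)) *
              (∑ r ∈ RR τ s, ψ (z r.castSucc) (z r.succ)) -
            (1 / 432) * (∑ m : Fin s, (ee A τ g (z m.castSucc) (z m.succ)) ^ 2) *
              (∑ r ∈ RR τ s, ψ (z r.castSucc) (z r.succ))) =
      ∑ r ∈ RR τ s, ((1 / 4) * ∑ z : Fin (s + 1) → V,
          wt w A s z * (ψ (z r.castSucc) (z r.succ) * cutP g (z 0) (z (Fin.last s))) -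
        (1 / 432) * ∑ z : Fin (s + 1) → V, wt w A s z *
          ((∑ m : Fin s, (ee A τ g (z m.castSucc) (z m.succ)) ^ 2) *
            ψ (z r.castSucc) (z r.succ))) := by
    have ez : ∀ z : Fin (s + 1) → V, wt w A s z *
          ((1 / 4) * cutP g (z 0) (z (Fin.last s)) *
              (∑ r ∈ RR τ s, ψ (z r.castSucc) (z r.succ)) -
            (1 / 432) * (∑ m : Fin s, (ee A τ g (z m.castSucc) (z m.succ)) ^ 2) *
              (∑ r ∈ RR τ s, ψ (z r.castSucc) (z r.succ))) =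
        ∑ r ∈ RR τ s, ((1 / 4) * (wt w A s z * (ψ (z r.castSucc) (z r.succ) * cutP g (z 0) (z (Fin.last s)))) -
          (1 / 432) * (wt w A s z * ((∑ m : Fin s, (ee A τ g (z m.castSucc) (z m.succ)) ^ 2) *
            ψ (z r.castSucc) (z r.succ)))) := by
      intro z
      set X := ∑ m : Fin s, (ee A τ g (z m.castSucc) (z m.succ)) ^ 2
      set P := cutP g (z 0) (z (Fin.last s))
      have : wt w A s z * ((1 / 4) * P * (∑ r ∈ RR τ s, ψ (z r.castSucc) (z r.succ)) -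
            (1 / 432) * X * (∑ r ∈ RR τ s, ψ (z r.castSucc) (z r.succ))) =
          (wt w A s z * ((1 / 4) * P - (1 / 432) * X)) * (∑ r ∈ RR τ s, ψ (z r.castSucc) (z r.succ)) := by
        ring
      rw [this, Finset.mul_sum]
      refine Finset.sum_congr rfl fun r _ => ?_
      ring
    simp only [ez]
    rw [Finset.sum_comm]
    refine Finset.sum_congr rfl fun r _ => ?_
    rw [Finset.sum_sub_distrib, Finset.mul_sum, Finset.mul_sum]
  rw [e]
  refine Finset.sum_le_sum fun r hr => ?_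
  rw [edge_cut h]
  have hX := edge_X_le h hτ hg0 hg1 s r hr ψ hψ
  have e2 : ∑ i, ∑ j, w i * (A i j * ψ i j) * ((1 / 4) * Bil A g r (s - 1 - r) i j - 11 / 432) =
      (1 / 4) * (∑ i, ∑ j, w i * (A i j * ψ i j) * Bil A g r (s - 1 - r) i j) -
        (11 / 432) * ∑ i, ∑ j, w i * (A i j * ψ i j) := by
    simp only [Finset.mul_sum, ← Finset.sum_sub_distrib]
    refine Finset.sum_congr rfl fun i _ => Finset.sum_congr rfl fun j _ => ?_
    ring
  rw [e2]
  linarith

end Crest.Agent.MarkovCotype
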