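import Crest.Agent.Lib.MarkovCotype.Paths

set_option autoImplicit false

open Finset

namespace Crest.Agent.MarkovCotype

variable {V : Type*} [Fintype V] [DecidableEq V]
variable {w : V → ℝ} {A : Matrix V V ℝ}

omit [DecidableEq V] in
theorem sum_comm4 (X : V → V → V → V → ℝ) :
    ∑ k, ∑ l, ∑ j, ∑ i, X k l j i = ∑ i, ∑ j, ∑ k, ∑ l, X k l j i := by
  calc ∑ k, ∑ l, ∑ j, ∑ i, X k l j i
      = ∑ k, ∑ j, ∑ l, ∑ i, X k l j i :=
        Finset.sum_congr rfl fun k _ => Finset.sum_comm
    _ = ∑ j, ∑ k, ∑ l, ∑ i, X k l j i := Finset.sum_comm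
    _ = ∑ j, ∑ k, ∑ i, ∑ l, X k l j i :=
        Finset.sum_congr rfl fun j _ => Finset.sum_congr rfl fun k _ => Finset.sum_comm
    _ = ∑ j, ∑ i, ∑ k, ∑ l, X k l j i :=
        Finset.sum_congr rfl fun j _ => Finset.sum_comm
    _ = ∑ i, ∑ j, ∑ k, ∑ l, X k l j i := Finset.sum_comm

/-- Self-adjointness of the Markov operator with respect to `w`. -/
theorem Pf_self_adjoint (h : Chain w A) (n : ℕ) (g G : V → ℝ) :
    ∑ b, w b * g b * Pf A n G b = ∑ i, w i * Pf A n g i * G i := by
  simp only [Pf, Finset.mul_sum, Finset.sum_mul]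
  rw [Finset.sum_comm]
  refine Finset.sum_congr rfl fun i _ => Finset.sum_congr rfl fun b _ => ?_
  have := h.pow_rev n b i
  calc w b * g b * ((A ^ n) b i * G i) = (w b * (A ^ n) b i) * (g b * G i) := by ring
    _ = (w i * (A ^ n) i b) * (g b * G i) := by rw [this]
    _ = w i * ((A ^ n) i b * g b) * G i := by ring

theorem center_eval (h : Chain w A) (a b : ℕ) (D : Matrix V V ℝ) (α γ : V → ℝ) :
    ∑ k, ∑ l, (A ^ a * D * A ^ b) k l * (w k * (α k * γ l)) =
      ∑ i, ∑ j, w i * D i j * (Pf A a α i * Pf A b γ j) := by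
  have e : ∀ k l, (A ^ a * D * A ^ b) k l * (w k * (α k * γ l)) =
      ∑ j, ∑ i, ((A ^ a) k i * D i j * (A ^ b) j l * (w k * (α k * γ l))) := by
    intro k l
    simp only [Matrix.mul_apply, Finset.sum_mul]
  simp only [e]
  rw [sum_comm4]
  refine Finset.sum_congr rfl fun i _ => Finset.sum_congr rfl fun j _ => ?_
  simp only [Pf]
  rw [Finset.sum_mul_sum, Finset.mul_sum]
  refine Finset.sum_congr rfl fun k _ => ?_
  rw [Finset.mul_sum]
  refine Finset.sum_congr rfl fun l _ => ?_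
  have := h.pow_rev a k i
  calc (A ^ a) k i * D i j * (A ^ b) j l * (w k * (α k * γ l))
      = (w k * (A ^ a) k i) * D i j * (A ^ b) j l * (α k * γ l) := by ring
    _ = (w i * (A ^ a) i k) * D i j * (A ^ b) j l * (α k * γ l) := by rw [this]
    _ = w i * D i j * ((A ^ a) i k * α k * ((A ^ b) j l * γ l)) := by ring

/-- One marked edge, product test functions at the two ends. -/
theorem edge_expect (h : Chain w A) (s : ℕ) (r : Fin s) (ψ : V → V → ℝ) (α γ : V → ℝ) :
    ∑ z : Fin (s + 1) → V,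
        wt w A s z * (ψ (z r.castSucc) (z r.succ) * (α (z 0) * γ (z (Fin.last s))))
      = ∑ i, ∑ j, w i * (A i j * ψ i j) * (Pf A r α i * Pf A (s - 1 - r) γ j) := by
  rw [path_center s r ψ (fun k l => α k * γ l), center_eval h]
  rfl

/-- One marked edge, stationarity. -/
theorem edge_stationary (h : Chain w A) (s : ℕ) (r : Fin s) (ψ : V → V → ℝ) :
    ∑ z : Fin (s + 1) → V, wt w A s z * ψ (z r.castSucc) (z r.succ)
      = ∑ i, ∑ j, w i * (A i j * ψ i j) := by
  have := edge_expect h s r ψ (fun _ => 1) (fun _ => 1)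
  simp only [Pf_const h, mul_one] at this
  exact this

theorem two_eval (h : Chain w A) (p n c : ℕ) (D₁ D₂ : Matrix V V ℝ) :
    ∑ k, ∑ l, (A ^ p * D₁ * (A ^ n * D₂ * A ^ c)) k l * w k =
      ∑ a, ∑ b, w a * D₁ a b * Pf A n (fun i => ∑ j, D₂ i j) b := by
  set G : V → ℝ := fun i => ∑ j, D₂ i j with hG
  have e1 : ∀ b, ∑ l, (A ^ n * D₂ * A ^ c) b l = Pf A n G b := by
    intro b
    calc ∑ l, (A ^ n * D₂ * A ^ c) b l
        = ∑ l, ∑ j, (A ^ n * D₂) b j * (A ^ c) j l :=
          Finset.sum_congr rfl fun l _ => Matrix.mul_apply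
      _ = ∑ j, ∑ l, (A ^ n * D₂) b j * (A ^ c) j l := Finset.sum_comm
      _ = ∑ j, (A ^ n * D₂) b j := by
          refine Finset.sum_congr rfl fun j _ => ?_
          rw [← Finset.mul_sum, h.pow_sum, mul_one]
      _ = ∑ j, ∑ i, (A ^ n) b i * D₂ i j :=
          Finset.sum_congr rfl fun j _ => Matrix.mul_apply
      _ = ∑ i, ∑ j, (A ^ n) b i * D₂ i j := Finset.sum_comm
      _ = Pf A n G b := by
          refine Finset.sum_congr rfl fun i _ => ?_
          rw [← Finset.mul_sum]
  have e2 : ∀ k, ∑ l, (A ^ p * D₁ * (A ^ n * D₂ * A ^ c)) k l * w k =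
      ∑ a, ∑ b, (w k * (A ^ p) k a) * (D₁ a b * Pf A n G b) := by
    intro k
    calc ∑ l, (A ^ p * D₁ * (A ^ n * D₂ * A ^ c)) k l * w k
        = ∑ l, ∑ b, (A ^ p * D₁) k b * (A ^ n * D₂ * A ^ c) b l * w k := by
          refine Finset.sum_congr rfl fun l _ => ?_
          rw [Matrix.mul_apply, Finset.sum_mul]
      _ = ∑ b, ∑ l, (A ^ p * D₁) k b * (A ^ n * D₂ * A ^ c) b l * w k := Finset.sum_comm
      _ = ∑ b, (A ^ p * D₁) k b * Pf A n G b * w k := by
          refine Finset.sum_congr rfl fun b _ => ?_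
          rw [← e1, Finset.mul_sum, Finset.sum_mul]
      _ = ∑ b, ∑ a, (A ^ p) k a * D₁ a b * Pf A n G b * w k := by
          refine Finset.sum_congr rfl fun b _ => ?_
          rw [Matrix.mul_apply, Finset.sum_mul, Finset.sum_mul]
      _ = ∑ a, ∑ b, (A ^ p) k a * D₁ a b * Pf A n G b * w k := Finset.sum_comm
      _ = ∑ a, ∑ b, (w k * (A ^ p) k a) * (D₁ a b * Pf A n G b) := by
          refine Finset.sum_congr rfl fun a _ => Finset.sum_congr rfl fun b _ => ?_
          ring
  simp only [e2]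
  calc ∑ k, ∑ a, ∑ b, (w k * (A ^ p) k a) * (D₁ a b * Pf A n G b)
      = ∑ a, ∑ k, ∑ b, (w k * (A ^ p) k a) * (D₁ a b * Pf A n G b) := Finset.sum_comm
    _ = ∑ a, ∑ b, ∑ k, (w k * (A ^ p) k a) * (D₁ a b * Pf A n G b) :=
        Finset.sum_congr rfl fun a _ => Finset.sum_comm
    _ = ∑ a, ∑ b, w a * D₁ a b * Pf A n G b := by
        refine Finset.sum_congr rfl fun a _ => Finset.sum_congr rfl fun b _ => ?_
        rw [← Finset.sum_mul, h.stationary]
        ring

/-- An edge before the marked edge. -/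
theorem edge_pair_past (h : Chain w A) (s : ℕ) (m r : Fin s) (hmr : m < r) (ξ ψ : V → V → ℝ)
    (hξ : ∀ i j, ξ i j = ξ j i) :
    ∑ z : Fin (s + 1) → V,
        wt w A s z * (ξ (z m.castSucc) (z m.succ) * ψ (z r.castSucc) (z r.succ))
      = ∑ i, ∑ j, w i * (A i j * ψ i j) *
          Pf A ((r : ℕ) - m - 1) (fun b => ∑ a, A b a * ξ b a) i := by
  rw [path_two s m r hmr ξ ψ, two_eval h]
  set n := (r : ℕ) - m - 1 with hn
  set g : V → ℝ := fun b => ∑ a, A b a * ξ b a with hg
  set G : V → ℝ := fun i => ∑ j, hada A ψ i j with hG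
  have e1 : ∀ b, ∑ a, w a * hada A ξ a b * Pf A n G b = w b * g b * Pf A n G b := by
    intro b
    rw [← Finset.sum_mul]
    congr 1
    rw [hg]
    simp only [Finset.mul_sum]
    refine Finset.sum_congr rfl fun a _ => ?_
    have := h.rev a b
    simp only [hada, Matrix.of_apply]
    calc w a * (A a b * ξ a b) = (w a * A a b) * ξ a b := by ring
      _ = (w b * A b a) * ξ b a := by rw [this, hξ a b]
      _ = w b * (A b a * ξ b a) := by ring
  rw [Finset.sum_comm]
  simp only [e1]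
  rw [Pf_self_adjoint h]
  refine Finset.sum_congr rfl fun i _ => ?_
  simp only [hG, hada, Matrix.of_apply]
  rw [Finset.mul_sum]
  refine Finset.sum_congr rfl fun j _ => ?_
  ring

/-- An edge after the marked edge. -/
theorem edge_pair_future (h : Chain w A) (s : ℕ) (r m : Fin s) (hrm : r < m) (ξ ψ : V → V → ℝ) :
    ∑ z : Fin (s + 1) → V,
        wt w A s z * (ψ (z r.castSucc) (z r.succ) * ξ (z m.castSucc) (z m.succ))
      = ∑ i, ∑ j, w i * (A i j * ψ i j) *
          Pf A ((m : ℕ) - r - 1) (fun b => ∑ a, A b a * ξ b a) j := by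
  rw [path_two s r m hrm ψ ξ, two_eval h]
  rfl

/-- The same edge, twice. -/
theorem edge_same (h : Chain w A) (s : ℕ) (r : Fin s) (ξ ψ : V → V → ℝ) :
    ∑ z : Fin (s + 1) → V,
        wt w A s z * (ξ (z r.castSucc) (z r.succ) * ψ (z r.castSucc) (z r.succ))
      = ∑ i, ∑ j, w i * (A i j * ψ i j) * ξ i j := by
  refine (edge_stationary h s r (fun i j => ξ i j * ψ i j)).trans ?_
  refine Finset.sum_congr rfl fun i _ => Finset.sum_congr rfl fun j _ => ?_
  ring

/-- Expected total of an edge function along the path, jointly with a marked edge. -/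
theorem edge_total (h : Chain w A) (s : ℕ) (r : Fin s) (ξ ψ : V → V → ℝ)
    (hξ : ∀ i j, ξ i j = ξ j i) :
    ∑ z : Fin (s + 1) → V,
        wt w A s z * ((∑ m : Fin s, ξ (z m.castSucc) (z m.succ)) * ψ (z r.castSucc) (z r.succ))
      = ∑ i, ∑ j, w i * (A i j * ψ i j) *
          (∑ l ∈ range (r : ℕ), Pf A l (fun b => ∑ a, A b a * ξ b a) i + ξ i j +
            ∑ l ∈ range (s - 1 - r), Pf A l (fun b => ∑ a, A b a * ξ b a) j) := by
  set g : V → ℝ := fun b => ∑ a, A b a * ξ b a with hg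
  set T : ℕ → V → V → ℝ := fun m i j =>
    if m < (r : ℕ) then Pf A ((r : ℕ) - m - 1) g i
    else if m = (r : ℕ) then ξ i j else Pf A (m - r - 1) g j with hT
  have hm : ∀ m : Fin s, ∑ z : Fin (s + 1) → V,
      wt w A s z * (ξ (z m.castSucc) (z m.succ) * ψ (z r.castSucc) (z r.succ)) =
        ∑ i, ∑ j, w i * (A i j * ψ i j) * T m i j := by
    intro m
    rcases lt_trichotomy m r with hlt | heq | hgt
    · have hlt' : (m : ℕ) < r := hlt
      rw [edge_pair_past h s m r hlt ξ ψ hξ]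
      simp only [hT, hlt', if_true]
      rfl
    · subst heq
      rw [edge_same h s m ξ ψ]
      simp only [hT, lt_irrefl, if_false, if_true]
    · have hgt' : (r : ℕ) < m := hgt
      have h1 : ¬ (m : ℕ) < r := by omega
      have h2 : ¬ (m : ℕ) = r := by omega
      have := edge_pair_future h s r m hgt ξ ψ
      simp only [hT, h1, h2, if_false]
      rw [← this]
      refine Finset.sum_congr rfl fun z _ => ?_
      ring
  have e1 : ∑ z : Fin (s + 1) → V,
        wt w A s z * ((∑ m : Fin s, ξ (z m.castSucc) (z m.succ)) * ψ (z r.castSucc) (z r.succ)) =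
      ∑ m : Fin s, ∑ z : Fin (s + 1) → V,
        wt w A s z * (ξ (z m.castSucc) (z m.succ) * ψ (z r.castSucc) (z r.succ)) := by
    rw [Finset.sum_comm]
    refine Finset.sum_congr rfl fun z _ => ?_
    rw [Finset.sum_mul, Finset.mul_sum]
  rw [e1]
  simp only [hm]
  rw [Finset.sum_comm]
  refine Finset.sum_congr rfl fun i _ => ?_
  rw [Finset.sum_comm]
  refine Finset.sum_congr rfl fun j _ => ?_
  rw [← Finset.mul_sum]
  congr 1
  rw [Fin.sum_univ_eq_sum_range (fun m => T m i j) s]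
  obtain ⟨r', hr'⟩ := r
  obtain ⟨b, rfl⟩ : ∃ b, s = r' + (1 + b) := ⟨s - 1 - r', by omega⟩
  simp only at hT ⊢
  have eb : r' + (1 + b) - 1 - r' = b := by omega
  rw [eb, Finset.sum_range_add, add_assoc]
  have p1 : ∑ x ∈ range r', T x i j = ∑ l ∈ range r', Pf A l g i := by
    rw [← Finset.sum_range_reflect (fun l => Pf A l g i) r']
    refine Finset.sum_congr rfl fun x hx => ?_
    have hx' : x < r' := Finset.mem_range.mp hx
    have e : r' - 1 - x = r' - x - 1 := by omega
    simp only [hT, hx', if_true, e]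
  have p2 : ∑ x ∈ range (1 + b), T (r' + x) i j = ξ i j + ∑ l ∈ range b, Pf A l g j := by
    rw [Nat.add_comm 1 b, Finset.sum_range_succ', add_comm]
    congr 1
    · simp [hT]
    · refine Finset.sum_congr rfl fun x _ => ?_
      have h1 : ¬ (r' + (x + 1) < r') := by omega
      have h2 : ¬ (r' + (x + 1) = r') := by omega
      have e : r' + (x + 1) - r' - 1 = x := by omega
      simp only [hT, h1, h2, if_false, e]
  rw [p1, p2]

end Crest.Agent.MarkovCotype
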