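import Crest.Agent.Lib.MarkovCotype.Layer

set_option autoImplicit false

open Finset

namespace Crest.Agent.MarkovCotype

/-- The space of absolutely summable real sequences. -/
abbrev L1 := lp (fun _ : ℕ => ℝ) 1

theorem L1_norm (f : L1) : ‖f‖ = ∑' c, |(f : ℕ → ℝ) c| := by
  have h := lp.norm_eq_tsum_rpow (p := 1) (by simp) f
  simpa using h

theorem L1_summable (f : L1) : Summable fun c => |(f : ℕ → ℝ) c| := by
  have h := (lp.memℓp f).summable (by simp)
  simpa using h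

theorem L1_mk (f : ℕ → ℝ) (hf : Summable fun c => |f c|) :
    ∃ F : L1, ∀ c, (F : ℕ → ℝ) c = f c := by
  refine ⟨⟨f, memℓp_gen ?_⟩, fun c => rfl⟩
  simpa using hf

theorem L1_dist (f g : L1) : dist f g = ∑' c, |(f : ℕ → ℝ) c - (g : ℕ → ℝ) c| := by
  rw [dist_eq_norm, L1_norm]
  simp

theorem L1_summable_sub (f g : L1) : Summable fun c => |(f : ℕ → ℝ) c - (g : ℕ → ℝ) c| := by
  have := L1_summable (f - g)
  simpa using this

variable {n : ℕ}

/-- Markov cotype for `ℓ₁` when `t ≥ 55`. -/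
theorem l1_cotype_large (t : ℕ) (ht : 55 ≤ t) (w : Fin n → ℝ) (A : Matrix (Fin n) (Fin n) ℝ)
    (h : Chain w A) (x : Fin n → L1) :
    ∃ y : Fin n → L1,
      ∑ i, w i * dist (x i) (y i) ^ 2 + t * ∑ i, ∑ j, w i * A i j * dist (y i) (y j) ^ 2 ≤
        3024 * ((1 / (t : ℝ)) * ∑ s ∈ Icc 1 t, ∑ k, ∑ l, w k * (A ^ s) k l * dist (x k) (x l) ^ 2) := by
  classical
  set τ := (t + 1) / 2 with hτ
  choose a lam h0 hempty huniv h1 h2 using fun c => layer_cake (fun i => (x i : ℕ → ℝ) c)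
  -- summability of the weights of the cuts
  have hsum : ∀ S, Summable fun c => lam c S := by
    intro S
    by_cases hS1 : S = ∅
    · subst hS1
      simp only [hempty]
      exact summable_zero
    by_cases hS2 : S = univ
    · subst hS2
      simp only [huniv]
      exact summable_zero
    obtain ⟨k, hk⟩ := Finset.nonempty_iff_ne_empty.2 hS1
    obtain ⟨l, hl⟩ : ∃ l, l ∉ S := by
      by_contra hc
      simp only [not_exists, not_not] at hc
      exact hS2 (Finset.eq_univ_iff_forall.2 hc)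
    refine Summable.of_nonneg_of_le (fun c => h0 c S) (fun c => ?_) (L1_summable_sub (x k) (x l))
    exact lam_le_of_sep (h0 c) (h2 c) S hk hl
  set Λ : Finset (Fin n) → ℝ := fun S => ∑' c, lam c S with hΛdef
  have hΛ : ∀ S, 0 ≤ Λ S := fun S => tsum_nonneg fun c => h0 c S
  have hswapS : ∀ B : Finset (Fin n) → ℝ, Summable fun c => ∑ S, lam c S * B S := fun B =>
    summable_sum fun S _ => (hsum S).mul_right _
  have hswap : ∀ B : Finset (Fin n) → ℝ, ∑' c, ∑ S, lam c S * B S = ∑ S, Λ S * B S := by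
    intro B
    rw [Summable.tsum_finsetSum fun S _ => (hsum S).mul_right _]
    refine Finset.sum_congr rfl fun S _ => ?_
    rw [tsum_mul_right]
  have hdd : ∀ k l, dist (x k) (x l) = dd cutF Λ k l := by
    intro k l
    rw [L1_dist]
    simp only [dd]
    rw [← hswap (fun S => cutP (cutF S) k l)]
    exact tsum_congr fun c => h2 c k l
  -- a norm estimate
  have hnorm : ∀ (F : L1) (B : Finset (Fin n) → ℝ),
      (∀ c, |(F : ℕ → ℝ) c| ≤ ∑ S, lam c S * B S) → ‖F‖ ≤ ∑ S, Λ S * B S := by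
    intro F B hF
    rw [L1_norm, ← hswap B]
    exact (L1_summable F).tsum_le_tsum hF (hswapS B)
  -- the new points
  set δ : Fin n → ℕ → ℝ := fun i c =>
    ∑ S, lam c S * (phi (uAvg A τ (cutF S) i) - cutF S i) with hδ
  have hδabs : ∀ i c, |δ i c| ≤ ∑ S, lam c S * |cutF S i - phi (uAvg A τ (cutF S) i)| := by
    intro i c
    refine (Finset.abs_sum_le_sum_abs _ _).trans (Finset.sum_le_sum fun S _ => ?_)
    rw [abs_mul, abs_of_nonneg (h0 c S), abs_sub_comm]
  have hDex : ∀ i, ∃ D : L1, ∀ c, (D : ℕ → ℝ) c = δ i c := by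
    intro i
    refine L1_mk _ (Summable.of_nonneg_of_le (fun c => abs_nonneg _) (hδabs i) (hswapS _))
  choose D hD using hDex
  refine ⟨fun i => x i + D i, ?_⟩
  have hXY : ∀ i, dist (x i) (x i + D i) ≤ ∑ S, Λ S * |cutF S i - phi (uAvg A τ (cutF S) i)| := by
    intro i
    rw [dist_self_add_right]
    refine hnorm _ _ fun c => ?_
    rw [hD]
    exact hδabs i c
  have hval : ∀ i c, (x i : ℕ → ℝ) c + δ i c = a c + ∑ S, lam c S * phi (uAvg A τ (cutF S) i) := by
    intro i c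
    rw [h1 c i, add_assoc]
    congr 1
    simp only [hδ]
    rw [← Finset.sum_add_distrib]
    refine Finset.sum_congr rfl fun S _ => ?_
    ring
  have hYY : ∀ i j, dist (x i + D i) (x j + D j) ≤ EE A τ cutF Λ i j := by
    intro i j
    rw [dist_eq_norm]
    refine hnorm _ _ fun c => ?_
    have e : ((x i + D i - (x j + D j) : L1) : ℕ → ℝ) c =
        ∑ S, lam c S * (phi (uAvg A τ (cutF S) i) - phi (uAvg A τ (cutF S) j)) := by
      simp only [lp.coeFn_sub, lp.coeFn_add, Pi.sub_apply, Pi.add_apply, hD]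
      rw [hval, hval, add_sub_add_left_eq_sub, ← Finset.sum_sub_distrib]
      refine Finset.sum_congr rfl fun S _ => ?_
      ring
    rw [e]
    refine (Finset.abs_sum_le_sum_abs _ _).trans (Finset.sum_le_sum fun S _ => ?_)
    rw [abs_mul, abs_of_nonneg (h0 c S)]
    rfl
  -- assemble
  have hcore := core_total h cutF (fun S k => cutF_cases S k) Λ hΛ t ht
  rw [← hτ] at hcore
  have hfirst : ∑ i, w i * dist (x i) (x i + D i) ^ 2 ≤
      ∑ i, w i * (∑ S, Λ S * |cutF S i - phi (uAvg A τ (cutF S) i)|) ^ 2 :=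
    Finset.sum_le_sum fun i _ => mul_le_mul_of_nonneg_left
      (pow_le_pow_left₀ dist_nonneg (hXY i) 2) (h.w_nonneg i)
  have hsecond : ∑ i, ∑ j, w i * A i j * dist (x i + D i) (x j + D j) ^ 2 ≤
      ∑ i, ∑ j, w i * A i j * (EE A τ cutF Λ i j) ^ 2 :=
    Finset.sum_le_sum fun i _ => Finset.sum_le_sum fun j _ => mul_le_mul_of_nonneg_left
      (pow_le_pow_left₀ dist_nonneg (hYY i j) 2) (mul_nonneg (h.w_nonneg i) (h.A_nonneg i j))
  have hT : (0 : ℝ) ≤ t := by positivity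
  have hsecond' := mul_le_mul_of_nonneg_left hsecond hT
  simp only [hdd]
  linarith

/-- The Markov cotype inequality for `ℓ₁`, in a convenient form. -/
theorem l1_cotype (t : ℕ) (ht : 1 ≤ t) (w : Fin n → ℝ) (A : Matrix (Fin n) (Fin n) ℝ)
    (h : Chain w A) (x : Fin n → L1) :
    ∃ y : Fin n → L1,
      ∑ i, w i * dist (x i) (y i) ^ 2 + t * ∑ i, ∑ j, w i * A i j * dist (y i) (y j) ^ 2 ≤
        3024 * ((1 / (t : ℝ)) * ∑ s ∈ Icc 1 t, ∑ k, ∑ l, w k * (A ^ s) k l * dist (x k) (x l) ^ 2) := by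
  by_cases hlarge : 55 ≤ t
  · exact l1_cotype_large t hlarge w A h x
  refine ⟨x, ?_⟩
  have hT1 : (1 : ℝ) ≤ t := by exact_mod_cast ht
  have hT54 : (t : ℝ) ≤ 54 := by
    have : t ≤ 54 := by omega
    exact_mod_cast this
  have hTpos : (0 : ℝ) < t := by linarith
  set F : ℕ → ℝ := fun s => ∑ k, ∑ l, w k * (A ^ s) k l * dist (x k) (x l) ^ 2 with hF
  have hF0 : ∀ s, 0 ≤ F s := fun s => Finset.sum_nonneg fun k _ => Finset.sum_nonneg fun l _ =>
    mul_nonneg (mul_nonneg (h.w_nonneg k) (h.pow_nonneg s k l)) (sq_nonneg _)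
  have hF1 : F 1 ≤ ∑ s ∈ Icc 1 t, F s :=
    Finset.single_le_sum (fun s _ => hF0 s) (Finset.mem_Icc.2 ⟨le_rfl, ht⟩)
  have e1 : ∑ i, ∑ j, w i * A i j * dist (x i) (x j) ^ 2 = F 1 := by simp [hF]
  have e2 : ∑ i, w i * dist (x i) (x i) ^ 2 = 0 := by simp
  rw [e1, e2, zero_add]
  have h1 : (t : ℝ) * F 1 ≤ 3024 * ((1 / (t : ℝ)) * F 1) := by
    have : 3024 * ((1 / (t : ℝ)) * F 1) = (3024 * F 1) / t := by field_simp
    rw [this, le_div_iff₀ hTpos]
    have h5 := hF0 1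
    nlinarith [mul_nonneg h5 (sub_nonneg.2 hT54), mul_nonneg h5 (sub_nonneg.2 hT1)]
  refine h1.trans ?_
  refine mul_le_mul_of_nonneg_left ?_ (by norm_num)
  exact mul_le_mul_of_nonneg_left hF1 (by positivity)

/-- The statement in the exact form used by the milestone. -/
theorem l1_cotype_final (t : ℕ) (ht : 1 ≤ t) (w : Fin n → ℝ) (A : Matrix (Fin n) (Fin n) ℝ)
    (hw : ∀ i, 0 ≤ w i) (hw1 : ∑ i, w i = 1)
    (hA : ∀ i j, 0 ≤ A i j) (hA1 : ∀ i, ∑ j, A i j = 1) (hrev : ∀ i j, w i * A i j = w j * A j i)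
    (x : Fin n → lp (fun _ : ℕ => ℝ) 1) :
    ∃ y : Fin n → lp (fun _ : ℕ => ℝ) 1,
      ∑ i, w i * dist (x i) (y i) ^ 2 + t * ∑ i, ∑ j, w i * A i j * dist (y i) (y j) ^ 2 ≤
        (12 * Real.sqrt 21) ^ 2 *
          ∑ i, ∑ j, w i * ((1 / (t : ℝ)) • ∑ s ∈ Finset.Icc 1 t, A ^ s) i j * dist (x i) (x j) ^ 2 := by
  have h : Chain w A := ⟨hw, hw1, hA, hA1, hrev⟩
  obtain ⟨y, hy⟩ := l1_cotype t ht w A h x
  refine ⟨y, hy.trans (le_of_eq ?_)⟩
  have e1 : (12 * Real.sqrt 21) ^ 2 = 3024 := by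
    rw [mul_pow, Real.sq_sqrt (by norm_num)]
    norm_num
  rw [e1]
  congr 1
  simp only [Matrix.smul_apply, Matrix.sum_apply, smul_eq_mul]
  have e2 : ∀ i j, w i * ((1 / (t : ℝ)) * ∑ s ∈ Finset.Icc 1 t, (A ^ s) i j) * dist (x i) (x j) ^ 2 =
      ∑ s ∈ Finset.Icc 1 t, (1 / (t : ℝ)) * (w i * (A ^ s) i j * dist (x i) (x j) ^ 2) := by
    intro i j
    rw [Finset.mul_sum, Finset.mul_sum, Finset.sum_mul]
    refine Finset.sum_congr rfl fun s _ => ?_
    ring
  simp only [e2]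
  simp only [Finset.mul_sum]
  rw [Finset.sum_comm]
  refine Finset.sum_congr rfl fun i _ => ?_
  rw [Finset.sum_comm]

end Crest.Agent.MarkovCotype
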