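import Crest.Agent.Lib.MarkovCotype.Core

set_option autoImplicit false

open Finset

namespace Crest.Agent.MarkovCotype

variable {V : Type*} [Fintype V] [DecidableEq V]

/-- The indicator function of a set of states. -/
def cutF (S : Finset V) (k : V) : ℝ := if k ∈ S then 1 else 0

theorem cutF_cases (S : Finset V) (k : V) : cutF S k = 0 ∨ cutF S k = 1 := by
  unfold cutF; split_ifs <;> simp

/-- The layer-cake decomposition of a function with values in a finite set. -/
theorem layer_aux (R : Finset ℝ) : ∀ f : V → ℝ, (∀ k, f k ∈ R) →
    ∃ (a : ℝ) (lam : Finset V → ℝ), (∀ S, 0 ≤ lam S) ∧ (∀ i, f i = a + ∑ S, lam S * cutF S i) ∧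
      (∀ i j, |f i - f j| = ∑ S, lam S * cutP (cutF S) i j) := by
  induction R using Finset.induction_on_max with
  | empty =>
    intro f hf
    refine ⟨0, 0, fun _ => le_rfl, fun i => ?_, fun i => ?_⟩
    · exact absurd (hf i) (Finset.notMem_empty _)
    · exact absurd (hf i) (Finset.notMem_empty _)
  | insert b R hb ih =>
    intro f hf
    rcases R.eq_empty_or_nonempty with rfl | hne
    · have hc : ∀ k, f k = b := fun k => by simpa using hf k
      refine ⟨b, 0, fun _ => le_rfl, fun i => by simp [hc], fun i j => by simp [hc]⟩
    · set v := R.max' hne with hvdef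
      have hv : v ∈ R := R.max'_mem hne
      have hvb : v < b := hb v hv
      have hle : ∀ x ∈ R, x ≤ v := fun x hx => R.le_max' x hx
      set f' : V → ℝ := fun k => min (f k) v with hf'def
      have hcase : ∀ k, f k = b ∨ f k ∈ R := fun k => by simpa using hf k
      have hf' : ∀ k, f' k ∈ R := by
        intro k
        simp only [hf'def]
        rcases hcase k with e | e
        · rw [e, min_eq_right hvb.le]; exact hv
        · rw [min_eq_left (hle _ e)]; exact e
      obtain ⟨a, lam, h0, h1, h2⟩ := ih f' hf'
      set S := univ.filter (fun k => f k = b) with hS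
      set d := b - v with hd
      have hd0 : 0 ≤ d := by rw [hd]; linarith
      have hsumS : ∀ G : Finset V → ℝ,
          ∑ S', (lam S' + if S' = S then d else 0) * G S' = ∑ S', lam S' * G S' + d * G S := by
        intro G
        simp only [add_mul, Finset.sum_add_distrib, ite_mul, zero_mul, Finset.sum_ite_eq',
          Finset.mem_univ, if_true]
      refine ⟨a, fun S' => lam S' + if S' = S then d else 0, ?_, ?_, ?_⟩
      · intro S'
        have := h0 S'
        dsimp only
        split_ifs <;> linarith
      · intro i
        dsimp only
        rw [hsumS, ← add_assoc, ← h1 i]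
        simp only [hf'def, cutF, hS, Finset.mem_filter, Finset.mem_univ, true_and]
        rcases hcase i with e | e
        · rw [e, min_eq_right hvb.le]
          simp [hd]
        · have hne' : f i ≠ b := fun e' => by
            have := hle _ e
            rw [e'] at this
            linarith
          rw [min_eq_left (hle _ e)]
          simp [hne']
      · intro i j
        dsimp only
        rw [hsumS, ← h2 i j]
        simp only [hf'def, cutP, cutF, hS, Finset.mem_filter, Finset.mem_univ, true_and]
        rcases hcase i with e | e <;> rcases hcase j with e2 | e2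
        · rw [e, e2]; simp
        · have hj := hle _ e2
          have hne' : f j ≠ b := fun e' => by rw [e'] at hj; linarith
          rw [e, min_eq_right hvb.le, min_eq_left hj]
          simp only [if_true, if_neg hne']
          rw [abs_of_nonneg (by linarith), abs_of_nonneg (by linarith), hd]
          ring
        · have hj := hle _ e
          have hne' : f i ≠ b := fun e' => by rw [e'] at hj; linarith
          rw [e2, min_eq_right hvb.le, min_eq_left hj]
          simp only [if_true, if_neg hne']
          rw [abs_of_nonpos (by linarith), abs_of_nonpos (by linarith), hd]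
          ring
        · have hj := hle _ e
          have hj2 := hle _ e2
          have hne' : f i ≠ b := fun e' => by rw [e'] at hj; linarith
          have hne2 : f j ≠ b := fun e' => by rw [e'] at hj2; linarith
          rw [min_eq_left hj, min_eq_left hj2]
          simp [hne', hne2]

/-- The layer-cake decomposition of a real function on a finite set, with no trivial cuts. -/
theorem layer_cake (f : V → ℝ) :
    ∃ (a : ℝ) (lam : Finset V → ℝ), (∀ S, 0 ≤ lam S) ∧ lam ∅ = 0 ∧ lam univ = 0 ∧
      (∀ i, f i = a + ∑ S, lam S * cutF S i) ∧
      (∀ i j, |f i - f j| = ∑ S, lam S * cutP (cutF S) i j) := by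
  obtain ⟨a, lam, h0, h1, h2⟩ := layer_aux (V := V) (univ.image f) f
    (fun k => Finset.mem_image_of_mem _ (Finset.mem_univ k))
  refine ⟨a + lam univ, fun S => if S = ∅ ∨ S = univ then 0 else lam S, ?_, by simp, by simp, ?_, ?_⟩
  · intro S
    dsimp only
    split_ifs
    · exact le_rfl
    · exact h0 S
  · intro i
    have hne : (∅ : Finset V) ≠ univ := by
      intro e
      have : i ∈ (∅ : Finset V) := by rw [e]; exact Finset.mem_univ i
      simp at this
    have e : ∀ S : Finset V, lam S * cutF S i =
        (if S = ∅ ∨ S = univ then 0 else lam S) * cutF S i + if S = univ then lam univ else 0 := by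
      intro S
      by_cases h1 : S = univ
      · subst h1
        simp [cutF]
      · by_cases h2 : S = ∅
        · subst h2
          simp [cutF, hne]
        · simp [h1, h2]
    rw [h1 i, add_assoc]
    congr 1
    rw [add_comm]
    have : ∑ S, lam S * cutF S i = ∑ S, ((if S = ∅ ∨ S = univ then 0 else lam S) * cutF S i +
        if S = univ then lam univ else 0) := Finset.sum_congr rfl fun S _ => e S
    rw [this, Finset.sum_add_distrib, Finset.sum_ite_eq']
    simp
  · intro i j
    rw [h2 i j]
    refine Finset.sum_congr rfl fun S _ => ?_
    by_cases h1 : S = univ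
    · subst h1
      simp [cutF, cutP]
    · by_cases h2 : S = ∅
      · subst h2
        simp [cutF, cutP]
      · simp [h1, h2]

/-- A cut with positive weight is dominated by the distance of two separated points. -/
theorem lam_le_of_sep {lam : Finset V → ℝ} (h0 : ∀ S, 0 ≤ lam S) {f : V → ℝ}
    (h2 : ∀ i j, |f i - f j| = ∑ S, lam S * cutP (cutF S) i j) (S : Finset V) {k l : V}
    (hk : k ∈ S) (hl : l ∉ S) : lam S ≤ |f k - f l| := by
  rw [h2 k l]
  have hnn : ∀ S' ∈ (univ : Finset (Finset V)), 0 ≤ lam S' * cutP (cutF S') k l := fun S' _ =>
    mul_nonneg (h0 S') (by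
      rcases cutP_cases (cutF_cases S') k l with e | e <;> rw [e] <;> norm_num)
  have := Finset.single_le_sum hnn (Finset.mem_univ S)
  have e : cutP (cutF S) k l = 1 := by simp [cutP, cutF, hk, hl]
  rwa [e, mul_one] at this

end Crest.Agent.MarkovCotype
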