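import Crest.Agent.Lib.MarkovCotype.Basic

set_option autoImplicit false

open Finset

namespace Crest.Agent.MarkovCotype

variable {V : Type*} [Fintype V] [DecidableEq V]

/-- Product of the matrices `M 0, M 1, ..., M (s-1)`. -/
noncomputable def pathProd : ℕ → (ℕ → Matrix V V ℝ) → Matrix V V ℝ
  | 0, _ => 1
  | s + 1, M => M 0 * pathProd s (fun m => M (m + 1))

theorem path_sum (s : ℕ) (M : ℕ → Matrix V V ℝ) (F : V → V → ℝ) :
    ∑ z : Fin (s + 1) → V,
        (∏ m : Fin s, M m (z m.castSucc) (z m.succ)) * F (z 0) (z (Fin.last s))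
      = ∑ k, ∑ l, pathProd s M k l * F k l := by
  induction s generalizing M F with
  | zero =>
    rw [Fintype.sum_equiv (Equiv.funUnique (Fin 1) V) _ (fun k => F k k) (fun z => by
      simp [Equiv.funUnique, Fin.last])]
    simp [pathProd, Matrix.one_apply]
  | succ s ih =>
    rw [← (Fin.consEquiv (fun _ : Fin (s + 2) => V)).sum_comp, Fintype.sum_prod_type]
    refine Finset.sum_congr rfl fun k _ => ?_
    have e : ∀ z' : Fin (s + 1) → V,
        (∏ m : Fin (s + 1), M m ((Fin.consEquiv (fun _ : Fin (s + 2) => V) (k, z')) m.castSucc)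
            ((Fin.consEquiv (fun _ : Fin (s + 2) => V) (k, z')) m.succ)) *
          F ((Fin.consEquiv (fun _ : Fin (s + 2) => V) (k, z')) 0)
            ((Fin.consEquiv (fun _ : Fin (s + 2) => V) (k, z')) (Fin.last (s + 1)))
        = (∏ m : Fin s, (fun m => M (m + 1)) m (z' m.castSucc) (z' m.succ)) *
            (fun i l => M 0 k i * F k l) (z' 0) (z' (Fin.last s)) := by
      intro z'
      rw [Fin.prod_univ_succ]
      have e1 : (Fin.consEquiv (fun _ : Fin (s + 2) => V) (k, z')) 0 = k := rfl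
      have e2 : ∀ i : Fin (s + 1), (Fin.consEquiv (fun _ : Fin (s + 2) => V) (k, z')) i.succ = z' i :=
        fun i => rfl
      have e3 : (Fin.consEquiv (fun _ : Fin (s + 2) => V) (k, z')) (Fin.last (s + 1)) = z' (Fin.last s) := by
        rw [← Fin.succ_last, e2]
      have e4 : ∀ m : Fin s, (Fin.consEquiv (fun _ : Fin (s + 2) => V) (k, z')) (m.succ).castSucc
          = z' m.castSucc := by
        intro m
        rw [← Fin.succ_castSucc, e2]
      have e5 : (Fin.consEquiv (fun _ : Fin (s + 2) => V) (k, z')) ((0 : Fin (s + 1)).castSucc) = k := rfl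
      simp only [e1, e3, e4, e5, e2]
      simp only [Fin.val_zero, Fin.val_succ]
      ring
    rw [Finset.sum_congr rfl (fun z' _ => e z')]
    refine (ih (fun m => M (m + 1)) (fun i l => M 0 k i * F k l)).trans ?_
    simp only [pathProd, Matrix.mul_apply, Finset.sum_mul]
    rw [Finset.sum_comm]
    refine Finset.sum_congr rfl fun l _ => Finset.sum_congr rfl fun i _ => ?_
    ring

theorem pathProd_const (A : Matrix V V ℝ) (s : ℕ) : pathProd s (fun _ => A) = A ^ s := by
  induction s with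
  | zero => simp [pathProd]
  | succ s ih => simp only [pathProd, ih]; rw [pow_succ']

/-- All matrices equal `A` except the one at position `a`. -/
noncomputable def M1 (A D : Matrix V V ℝ) (a m : ℕ) : Matrix V V ℝ := if m = a then D else A

theorem pathProd_M1 (A D : Matrix V V ℝ) (a b : ℕ) :
    pathProd (a + 1 + b) (M1 A D a) = A ^ a * D * A ^ b := by
  induction a with
  | zero =>
    have e : (0 + 1 + b) = b + 1 := by omega
    rw [e]
    simp only [pathProd]
    have e1 : (fun m => M1 A D 0 (m + 1)) = fun _ => A := by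
      funext m; simp [M1]
    rw [e1, pathProd_const]
    simp [M1]
  | succ a ih =>
    have e : (a + 1 + 1 + b) = (a + 1 + b) + 1 := by omega
    rw [e]
    simp only [pathProd]
    have e1 : (fun m => M1 A D (a + 1) (m + 1)) = M1 A D a := by
      funext m; simp [M1]
    rw [e1, ih]
    have e2 : M1 A D (a + 1) 0 = A := by simp [M1]
    rw [e2, pow_succ']
    simp only [mul_assoc]

/-- All matrices equal `A` except `D₁` at position `a` and `D₂` at position `a + 1 + n`. -/
noncomputable def M2 (A D₁ D₂ : Matrix V V ℝ) (a n m : ℕ) : Matrix V V ℝ :=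
  if m = a then D₁ else if m = a + 1 + n then D₂ else A

theorem pathProd_M2 (A D₁ D₂ : Matrix V V ℝ) (a n c : ℕ) :
    pathProd (a + 1 + (n + 1 + c)) (M2 A D₁ D₂ a n) = A ^ a * D₁ * (A ^ n * D₂ * A ^ c) := by
  induction a with
  | zero =>
    have e : (0 + 1 + (n + 1 + c)) = (n + 1 + c) + 1 := by omega
    rw [e]
    simp only [pathProd]
    have e1 : (fun m => M2 A D₁ D₂ 0 n (m + 1)) = M1 A D₂ n := by
      funext m
      simp only [M2, M1]
      have : m + 1 ≠ 0 := by omega
      simp only [this, if_false]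
      have e2 : (m + 1 = 0 + 1 + n) ↔ m = n := by omega
      simp only [e2]
    rw [e1, pathProd_M1]
    simp [M2]
  | succ a ih =>
    have e : (a + 1 + 1 + (n + 1 + c)) = (a + 1 + (n + 1 + c)) + 1 := by omega
    rw [e]
    simp only [pathProd]
    have e1 : (fun m => M2 A D₁ D₂ (a + 1) n (m + 1)) = M2 A D₁ D₂ a n := by
      funext m
      simp only [M2]
      have e2 : (m + 1 = a + 1) ↔ m = a := by omega
      have e3 : (m + 1 = a + 1 + 1 + n) ↔ m = a + 1 + n := by omega
      simp only [e2, e3]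
    rw [e1, ih]
    have e2 : M2 A D₁ D₂ (a + 1) n 0 = A := by
      simp only [M2]
      have h1 : (0 : ℕ) ≠ a + 1 := by omega
      have h2 : (0 : ℕ) ≠ a + 1 + 1 + n := by omega
      simp only [h1, h2, if_false]
    rw [e2, pow_succ']
    simp only [mul_assoc]

/-- Entrywise product of the matrix `A` with a function. -/
def hada (A : Matrix V V ℝ) (ψ : V → V → ℝ) : Matrix V V ℝ := Matrix.of fun i j => A i j * ψ i j

/-- Weight of a path of length `s`. -/
noncomputable def wt (w : V → ℝ) (A : Matrix V V ℝ) (s : ℕ) (z : Fin (s + 1) → V) : ℝ :=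
  w (z 0) * ∏ m : Fin s, A (z m.castSucc) (z m.succ)

variable {w : V → ℝ} {A : Matrix V V ℝ}

theorem wt_nonneg (h : Chain w A) (s : ℕ) (z : Fin (s + 1) → V) : 0 ≤ wt w A s z :=
  mul_nonneg (h.w_nonneg _) (Finset.prod_nonneg fun m _ => h.A_nonneg _ _)

/-- Distribution of the endpoints of a path. -/
theorem path_ends (s : ℕ) (F : V → V → ℝ) :
    ∑ z : Fin (s + 1) → V, wt w A s z * F (z 0) (z (Fin.last s))
      = ∑ k, ∑ l, w k * (A ^ s) k l * F k l := by
  have := path_sum s (fun _ => A) (fun k l => w k * F k l)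
  rw [pathProd_const] at this
  calc ∑ z : Fin (s + 1) → V, wt w A s z * F (z 0) (z (Fin.last s))
      = ∑ z : Fin (s + 1) → V, (∏ m : Fin s, A (z m.castSucc) (z m.succ)) *
          (w (z 0) * F (z 0) (z (Fin.last s))) := by
        refine Finset.sum_congr rfl fun z _ => ?_
        simp only [wt]; ring
    _ = _ := this
    _ = _ := by
        refine Finset.sum_congr rfl fun k _ => Finset.sum_congr rfl fun l _ => ?_
        ring

/-- Path sum with one marked edge. -/
theorem path_center (s : ℕ) (r : Fin s) (ψ : V → V → ℝ) (F : V → V → ℝ) :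
    ∑ z : Fin (s + 1) → V,
        wt w A s z * (ψ (z r.castSucc) (z r.succ) * F (z 0) (z (Fin.last s)))
      = ∑ k, ∑ l, (A ^ (r : ℕ) * hada A ψ * A ^ (s - 1 - r)) k l * (w k * F k l) := by
  obtain ⟨r, hr⟩ := r
  obtain ⟨b, rfl⟩ : ∃ b, s = r + 1 + b := ⟨s - 1 - r, by omega⟩
  have key := path_sum (r + 1 + b) (M1 A (hada A ψ) r) (fun k l => w k * F k l)
  rw [pathProd_M1] at key
  have eb : r + 1 + b - 1 - r = b := by omega
  simp only [eb]
  rw [← key]
  refine Finset.sum_congr rfl fun z _ => ?_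
  have e : ∀ m : Fin (r + 1 + b),
      M1 A (hada A ψ) r m (z m.castSucc) (z m.succ) =
        A (z m.castSucc) (z m.succ) *
          (if m = (⟨r, hr⟩ : Fin (r + 1 + b)) then ψ (z m.castSucc) (z m.succ) else 1) := by
    intro m
    by_cases hm : m = ⟨r, hr⟩
    · subst hm
      simp [M1, hada]
    · have : (m : ℕ) ≠ r := fun e => hm (Fin.ext e)
      simp [M1, this, hm]
  simp only [e, Finset.prod_mul_distrib]
  rw [Finset.prod_ite_eq' Finset.univ (⟨r, hr⟩ : Fin (r + 1 + b))
    (fun m => ψ (z m.castSucc) (z m.succ))]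
  simp only [wt, Finset.mem_univ, if_true]
  ring

/-- Path sum with two marked edges, `p` before `q`. -/
theorem path_two (s : ℕ) (p q : Fin s) (hpq : p < q) (ξ ψ : V → V → ℝ) :
    ∑ z : Fin (s + 1) → V,
        wt w A s z * (ξ (z p.castSucc) (z p.succ) * ψ (z q.castSucc) (z q.succ))
      = ∑ k, ∑ l, (A ^ (p : ℕ) * hada A ξ * (A ^ ((q : ℕ) - p - 1) * hada A ψ * A ^ (s - 1 - q))) k l
          * w k := by
  obtain ⟨p, hp⟩ := p
  obtain ⟨q, hq⟩ := q
  have hpq' : p < q := hpq
  obtain ⟨n, rfl⟩ : ∃ n, q = p + 1 + n := ⟨q - p - 1, by omega⟩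
  obtain ⟨c, rfl⟩ : ∃ c, s = p + 1 + (n + 1 + c) := ⟨s - 1 - (p + 1 + n), by omega⟩
  have key := path_sum (p + 1 + (n + 1 + c)) (M2 A (hada A ξ) (hada A ψ) p n) (fun k _ => w k)
  rw [pathProd_M2] at key
  have e1 : p + 1 + n - p - 1 = n := by omega
  have e2 : p + 1 + (n + 1 + c) - 1 - (p + 1 + n) = c := by omega
  simp only [e1, e2]
  rw [← key]
  refine Finset.sum_congr rfl fun z _ => ?_
  have e : ∀ m : Fin (p + 1 + (n + 1 + c)),
      M2 A (hada A ξ) (hada A ψ) p n m (z m.castSucc) (z m.succ) =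
        A (z m.castSucc) (z m.succ) *
          ((if m = (⟨p, hp⟩ : Fin (p + 1 + (n + 1 + c))) then ξ (z m.castSucc) (z m.succ) else 1) *
           (if m = (⟨p + 1 + n, hq⟩ : Fin (p + 1 + (n + 1 + c))) then ψ (z m.castSucc) (z m.succ) else 1)) := by
    intro m
    by_cases hm : m = ⟨p, hp⟩
    · subst hm
      have hne : (⟨p, hp⟩ : Fin (p + 1 + (n + 1 + c))) ≠ ⟨p + 1 + n, hq⟩ := by
        intro e; have := congrArg Fin.val e; simp at this; omega
      simp [M2, hada, hne]
    · have h1 : (m : ℕ) ≠ p := fun e => hm (Fin.ext e)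
      by_cases hm2 : m = ⟨p + 1 + n, hq⟩
      · subst hm2
        have h2 : p + 1 + n ≠ p := by omega
        simp [M2, hada, h2]
      · have h2 : (m : ℕ) ≠ p + 1 + n := fun e => hm2 (Fin.ext e)
        simp [M2, h1, h2, hm, hm2]
  simp only [e, Finset.prod_mul_distrib]
  rw [Finset.prod_ite_eq' Finset.univ (⟨p, hp⟩ : Fin (p + 1 + (n + 1 + c)))
    (fun m => ξ (z m.castSucc) (z m.succ)),
    Finset.prod_ite_eq' Finset.univ (⟨p + 1 + n, hq⟩ : Fin (p + 1 + (n + 1 + c)))
    (fun m => ψ (z m.castSucc) (z m.succ))]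
  simp only [wt, Finset.mem_univ, if_true]
  ring

end Crest.Agent.MarkovCotype
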